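import Vale.Agent.P216.D539.Tra

/-!
# P216-D, [D-MAP]: the maps of the compatible families of path spaces induced by `f : C(M, N)`

`M`, `N`, `L` compact metric, `hU : UniqSeg N ρ`, `0 < ρ`, `f : C(M, N)`; all maps are defined on
compatible families (`H901.PM.Fam`), for every field `k` and every degree `q`.

* `fl f : (XP k N q).Fam → (XP k M q).Fam`, free loops;
* `om f x : (GP k (f x) q).Fam → (GP k x q).Fam`, based loops;
* `ph f : (YP k f q).Fam → (XP k M q).Fam`, `w ↦ (w 0, f ∘ w)`, `YP` = pulled back free loops;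
* `sn f : (XP k N q).Fam → (YP k f q).Fam`, `(x, w) ↦ w`;
* `rs x`, `rsY y`: restrictions to the based loops; `Tra a a'`: change of the base point.
-/

set_option linter.all false

open Set Filter Topology BoundedContinuousFunction

namespace Vale.Agent.P216.D539

open Vale.Agent.P216.PS Vale.Agent.P216.MV337 Vale.Agent.P216.C337 Vale.Agent.P216.D337
open Vale.Agent.P216.AS (IsMap IsHtpy)
open Vale.Agent.P216.H901 (Hp Mono tr on PMa Ret Cls SpIntl PM)
open Vale.Agent.P216.H754B (rv_apply rv_mem_P rv_mem_FL rv_zero lip_rv XP GP mono_P mono_FL opP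
  evOp sb_self sb_empty SpOp PMOp PM.Fam.ext')

/-! ### The approximation -/

section approx

variable {M N : Type} [MetricSpace M] [CompactSpace M] [MetricSpace N] [CompactSpace N] {ρ : ℝ}

theorem exists_dl (hρ : 0 < ρ) (hU : LS.UniqSeg N ρ) (f : C(M, N)) : ∃ δ, Mo f ρ (ρ / 16) δ :=
  exists_mo f.continuous hU (by linarith) (by linarith)

/-- The scale of the approximation. -/
noncomputable def dl (hρ : 0 < ρ) (hU : LS.UniqSeg N ρ) (f : C(M, N)) : ℝ :=
  (exists_dl hρ hU f).choose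

theorem mo_dl (hρ : 0 < ρ) (hU : LS.UniqSeg N ρ) (f : C(M, N)) : Mo f ρ (ρ / 16) (dl hρ hU f) :=
  (exists_dl hρ hU f).choose_spec

/-- The chosen approximation. -/
theorem fm (hρ : 0 < ρ) (hU : LS.UniqSeg N ρ) (f : C(M, N)) :
    FMap f (lvl (ρ / 16) (dl hρ hU f)) (ρ / 16 / dl hρ hU f) (ρ / 8)
      (apx f (dl hρ hU f) (ρ / 16)) := by
  have h := (mo_dl hρ hU f).fmap
  have e : 2 * (ρ / 16) = ρ / 8 := by ring
  rwa [e] at h

end approx

/-! ### The persistence modules, the restrictions, the reversals -/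

section mod

variable {M N : Type} [MetricSpace M] [MetricSpace N]

/-- The persistence modules of the pulled back free loops. -/
noncomputable abbrev YP (k : Type) [Field k] (f : M → N) (q : ℕ) : PM k :=
  PMa k (fun t => PY f f univ t) (FMap.mono_PY f f univ) q

variable {k : Type} [Field k] {q : ℕ}

/-- The reversal on the free loops. -/
noncomputable abbrev rvX (k : Type) [Field k] (N : Type) [MetricSpace N] (q : ℕ) :
    PMOp (XP k N q) :=
  (evOp.sp sb_self sb_empty fun _ => empty_subset _).opa k mono_FL q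

/-- The reversal on the based loops. -/
noncomputable abbrev rvP (k : Type) [Field k] (x : N) (q : ℕ) : PMOp (GP k x q) :=
  (opP x).opa k (mono_P x) q

/-- The restriction to the fibre over `y`. -/
noncomputable def rsY (f : M → N) (y : M) (z : (YP k f q).Fam) : (GP k (f y) q).Fam :=
  (linY f (mem_univ y)).fam (mono_P (f y)) (FMap.mono_PY _ _ _) z

/-- The pull-back by `(x, w) ↦ w`. -/
noncomputable def sn (f : M → N) (z : (XP k N q).Fam) : (YP k f q).Fam :=
  (lsnd f univ).fam (FMap.mono_PY _ _ _) mono_FL z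

theorem rsY_sn (f : M → N) (y : M) (z : (XP k N q).Fam) : rsY f y (sn f z) = rs (f y) z := by
  unfold rsY sn rs
  refine (LMap.fam_comp' (linY f (mem_univ y)) (lsnd f univ) (linc (f y)) ?_ z).symm
  exact LEq.of_eq (linc (f y)) fun _ _ _ _ => rfl

theorem rs_rv (x : N) (z : (XP k N q).Fam) :
    rs x ((rvX k N q).fam z) = (rvP k x q).fam (rs x z) := by
  refine (linc x).fam_op (opP x) (evOp.sp sb_self sb_empty fun _ => empty_subset _) ?_ z
  exact fun t ht => ⟨t, ht, H550.hp_refl (H754B.map_rv _ fun w hw =>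
    rv_mem_FL (P_subset_FL hw) le_rfl) (mapsTo_empty _ _)⟩

theorem rs_smul (x : N) (a : k) (z : (XP k N q).Fam) :
    rs x (PM.Fam.smul a z) = PM.Fam.smul a (rs x z) := LMap.fam_smul _ _ _

theorem rsY_smul (f : M → N) (y : M) (a : k) (z : (YP k f q).Fam) :
    rsY f y (PM.Fam.smul a z) = PM.Fam.smul a (rsY f y z) := LMap.fam_smul _ _ _

theorem sn_smul (f : M → N) (a : k) (z : (XP k N q).Fam) :
    sn f (PM.Fam.smul a z) = PM.Fam.smul a (sn f z) := LMap.fam_smul _ _ _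

/-- The restriction to the based loops, on the levels. -/
theorem rs_z (x : N) (z : (XP k N q).Fam) (t : ℝ) (ht : 0 < t) :
    (rs x z).z t ht = AS.res P_subset_FL q (z.z t ht) := rfl

end mod

section rvY

variable {M N : Type} [MetricSpace M] [CompactSpace M] [MetricSpace N] [CompactSpace N]
  {k : Type} [Field k] {q : ℕ}

/-- The reversal on the pulled back free loops. -/
noncomputable abbrev rvYP (k : Type) [Field k] (f : M → N) (q : ℕ) : PMOp (YP k f q) :=
  ((evOpPY f).sp sb_self sb_empty fun _ => empty_subset _).opa k (FMap.mono_PY _ _ _) q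

theorem sn_rv (f : M → N) (z : (XP k N q).Fam) :
    sn f ((rvX k N q).fam z) = (rvYP k f q).fam (sn f z) := by
  refine (lsnd f univ).fam_op ((evOpPY f).sp sb_self sb_empty fun _ => empty_subset _)
    (evOp.sp sb_self sb_empty fun _ => empty_subset _) ?_ z
  intro t ht
  refine ⟨t, ht, H550.hp_refl (isMap_comp ((lsnd f univ).map t ht) (H754B.map_rv _ fun w hw =>
    rv_mem_FL hw le_rfl)) (mapsTo_empty _ _)⟩

theorem rsY_rv (f : M → N) (y : M) (z : (YP k f q).Fam) :
    rsY f y ((rvYP k f q).fam z) = (rvP k (f y) q).fam (rsY f y z) := by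
  refine (linY f (mem_univ y)).fam_op (opP (f y))
    ((evOpPY f).sp sb_self sb_empty fun _ => empty_subset _) ?_ z
  intro t ht
  refine ⟨t, ht, H550.hp_refl (isMap_comp ((linY f (mem_univ y)).map t ht) (map_rvY _ fun w hw =>
    rvY_mem hw le_rfl)) (mapsTo_empty _ _)⟩

end rvY

/-! ### The induced maps -/

section api

variable {M N L : Type} [MetricSpace M] [CompactSpace M] [MetricSpace N] [CompactSpace N]
  [MetricSpace L] [CompactSpace L] {ρ ρ' : ℝ} {k : Type} [Field k] {q : ℕ}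

/-- **The map of the free loops.** -/
noncomputable def fl (hρ : 0 < ρ) (hU : LS.UniqSeg N ρ) (f : C(M, N)) (z : (XP k N q).Fam) :
    (XP k M q).Fam := (fm hρ hU f).lFL.fam mono_FL mono_FL z

/-- **The map of the based loops.** -/
noncomputable def om (hρ : 0 < ρ) (hU : LS.UniqSeg N ρ) (f : C(M, N)) (x : M)
    (z : (GP k (f x) q).Fam) : (GP k x q).Fam :=
  ((fm hρ hU f).lP x x).fam (mono_P x) (mono_P (f x)) z

/-- **The map into the pulled back free loops.** -/
noncomputable def ph (hρ : 0 < ρ) (hU : LS.UniqSeg N ρ) (f : C(M, N)) (z : (YP k f q).Fam) :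
    (XP k M q).Fam := (fm hρ hU f).lphi.fam mono_FL (FMap.mono_PY _ _ _) z

variable {φ : ℝ → ℝ} {lam η : ℝ} {R : (ℝ →ᵇ M) → (ℝ →ᵇ N)}

/-- **Any approximation computes `fl`.** -/
theorem fl_eq (hρ : 0 < ρ) (hU : LS.UniqSeg N ρ) (f : C(M, N)) (h : FMap f φ lam η R)
    (hη : η ≤ ρ / 2) (z : (XP k N q).Fam) :
    fl hρ hU f z = h.lFL.fam mono_FL mono_FL z :=
  LMap.fam_congr _ _ ((fm hρ hU f).leq_FL h (d := 0) (r := ρ / 8 + ρ / 2)
    (fun x => (dist_self _).le) (by linarith) (by linarith) (by linarith) hU) z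

/-- **Any approximation computes `om`.** -/
theorem om_eq (hρ : 0 < ρ) (hU : LS.UniqSeg N ρ) (f : C(M, N)) (h : FMap f φ lam η R)
    (hη : η ≤ ρ / 2) (x : M) (z : (GP k (f x) q).Fam) :
    om hρ hU f x z = (h.lP x x).fam (mono_P x) (mono_P (f x)) z :=
  LMap.fam_congr _ _ ((fm hρ hU f).leq_P h (d := 0) (r := ρ / 8 + ρ / 2)
    (fun x => (dist_self _).le) (by linarith) (by linarith) (by linarith) hU x x rfl rfl) z

/-- **Any approximation computes `ph`.** -/
theorem ph_eq (hρ : 0 < ρ) (hU : LS.UniqSeg N ρ) (f : C(M, N)) (h : FMap f φ lam η R)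
    (hη : η ≤ ρ / 2) (z : (YP k f q).Fam) :
    ph hρ hU f z = h.lphi.fam mono_FL (FMap.mono_PY _ _ _) z :=
  LMap.fam_congr _ _ ((fm hρ hU f).leq_phi h (r := ρ / 8 + ρ / 2) (by linarith) (by linarith)
    (by linarith) hU) z

/-- The radius does not matter. -/
theorem fl_rho (hρ : 0 < ρ) (hU : LS.UniqSeg N ρ) (hρ' : 0 < ρ') (hU' : LS.UniqSeg N ρ')
    (f : C(M, N)) (z : (XP k N q).Fam) : fl hρ hU f z = fl hρ' hU' f z := by
  rcases le_total ρ ρ' with h | h
  · exact (fl_eq hρ' hU' f (fm hρ hU f) (by linarith) z).symm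
  · exact fl_eq hρ hU f (fm hρ' hU' f) (by linarith) z

theorem om_rho (hρ : 0 < ρ) (hU : LS.UniqSeg N ρ) (hρ' : 0 < ρ') (hU' : LS.UniqSeg N ρ')
    (f : C(M, N)) (x : M) (z : (GP k (f x) q).Fam) : om hρ hU f x z = om hρ' hU' f x z := by
  rcases le_total ρ ρ' with h | h
  · exact (om_eq hρ' hU' f (fm hρ hU f) (by linarith) x z).symm
  · exact om_eq hρ hU f (fm hρ' hU' f) (by linarith) x z

/-- **The strict maps of a Lipschitz map.** -/
theorem fl_gm (hρ : 0 < ρ) (hU : LS.UniqSeg N ρ) (f : C(M, N)) {K : ℝ} (hf : LipC f K)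
    (hK : 0 < K) (z : (XP k N q).Fam) (t : ℝ) (ht : 0 < t) :
    (fl hρ hU f z).z t ht = AS.pull (on k) (map_gm_FL hf hK t) q (z.z (K * t) (mul_pos hK ht)) := by
  rw [fl_eq hρ hU f (fmap_gm hf hK) (by linarith)]
  rfl

theorem om_gm (hρ : 0 < ρ) (hU : LS.UniqSeg N ρ) (f : C(M, N)) {K : ℝ} (hf : LipC f K)
    (hK : 0 < K) (x : M) (z : (GP k (f x) q).Fam) (t : ℝ) (ht : 0 < t) :
    (om hρ hU f x z).z t ht =
      AS.pull (on k) (map_gm_P hf hK x x t) q (z.z (K * t) (mul_pos hK ht)) := by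
  rw [om_eq hρ hU f (fmap_gm hf hK) (by linarith)]
  rfl

/-- `phi` of the strict map is `337`'s `phiY`. -/
theorem ph_gm (hρ : 0 < ρ) (hU : LS.UniqSeg N ρ) (f : C(M, N)) {K : ℝ} (hf : LipC f K)
    (hK : 0 < K) (z : (YP k f q).Fam) (t : ℝ) (ht : 0 < t) :
    (ph hρ hU f z).z t ht =
      AS.pull (on k) ((fmap_gm hf hK).map_phi ht.le) q (z.z (K * t) (mul_pos hK ht)) := by
  rw [ph_eq hρ hU f (fmap_gm hf hK) (by linarith)]
  rfl

/-! #### Functoriality -/

/-- A composition of approximations. -/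
theorem exists_comp (hρ : 0 < ρ) (hU : LS.UniqSeg N ρ) (hρ' : 0 < ρ') (hU' : LS.UniqSeg L ρ')
    (f : C(M, N)) (g : C(N, L)) : ∃ φ lam η R, ∃ h : FMap f φ lam η R, η ≤ ρ / 2 ∧
    ∃ ω, 0 ≤ ω ∧ ω ≤ ρ' / 8 ∧ ∀ x y, dist x y ≤ η → dist (g x) (g y) ≤ ω := by
  have huc := CompactSpace.uniformContinuous_of_continuous g.continuous
  obtain ⟨ε, hε, H⟩ := Metric.uniformContinuous_iff.1 huc (ρ' / 8) (by linarith)
  obtain ⟨φ, lam, η, R, h, h0, h1⟩ := exists_fmap (ε := min (ε / 2) (ρ / 2)) f.continuous hU hρ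
    (lt_min (by linarith) (by linarith))
  refine ⟨φ, lam, η, R, h, h1.trans (min_le_right _ _), ρ' / 8, by linarith, le_rfl,
    fun x y hxy => (H (lt_of_le_of_lt (hxy.trans (h1.trans (min_le_left _ _))) ?_)).le⟩
  linarith

/-- **Functoriality, free loops.** -/
theorem fl_comp (hρ : 0 < ρ) (hU : LS.UniqSeg N ρ) (hρ' : 0 < ρ') (hU' : LS.UniqSeg L ρ')
    (f : C(M, N)) (g : C(N, L)) (z : (XP k L q).Fam) :
    fl hρ' hU' (g.comp f) z = fl hρ hU f (fl hρ' hU' g z) := by
  obtain ⟨φ, lam, η, R, h, h1, ω, h2, h3, h4⟩ := exists_comp hρ hU hρ' hU' f g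
  have hc : FMap (g.comp f) _ _ _ _ := h.comp (fm hρ' hU' g) h2 h4
  rw [fl_eq hρ' hU' (g.comp f) hc (by linarith) z, fl_eq hρ hU f h h1]
  exact LMap.fam_comp h.lFL (fm hρ' hU' g).lFL z

/-- **Functoriality, based loops.** -/
theorem om_comp (hρ : 0 < ρ) (hU : LS.UniqSeg N ρ) (hρ' : 0 < ρ') (hU' : LS.UniqSeg L ρ')
    (f : C(M, N)) (g : C(N, L)) (x : M) (z : (GP k (g (f x)) q).Fam) :
    om hρ' hU' (g.comp f) x z = om hρ hU f x (om hρ' hU' g (f x) z) := by
  obtain ⟨φ, lam, η, R, h, h1, ω, h2, h3, h4⟩ := exists_comp hρ hU hρ' hU' f g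
  have hc : FMap (g.comp f) _ _ _ _ := h.comp (fm hρ' hU' g) h2 h4
  rw [om_eq hρ' hU' (g.comp f) hc (by linarith) x z, om_eq hρ hU f h h1]
  exact LMap.fam_comp (h.lP x x) ((fm hρ' hU' g).lP (f x) (f x)) z

/-- The identity. -/
theorem fl_id (hρ : 0 < ρ) (hU : LS.UniqSeg M ρ) (z : (XP k M q).Fam) :
    fl hρ hU (ContinuousMap.id M) z = z := by
  have h : FMap (ContinuousMap.id M) id 1 0 id := FMap.id
  rw [fl_eq hρ hU _ h (by linarith)]
  exact h.lFL.fam_id z

theorem om_id (hρ : 0 < ρ) (hU : LS.UniqSeg M ρ) (x : M) (z : (GP k x q).Fam) :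
    om hρ hU (ContinuousMap.id M) x z = z := by
  have h : FMap (ContinuousMap.id M) id 1 0 id := FMap.id
  exact (om_eq hρ hU _ h (by linarith) x z).trans ((h.lP x x).fam_id z)

/-! #### Restrictions, factorisation -/

/-- The restriction to the based loops. -/
theorem rs_fl (hρ : 0 < ρ) (hU : LS.UniqSeg N ρ) (f : C(M, N)) (x : M) (z : (XP k N q).Fam) :
    rs x (fl hρ hU f z) = om hρ hU f x (rs (f x) z) := by
  have h := fm hρ hU f
  unfold rs fl om
  rw [← LMap.fam_comp, ← LMap.fam_comp]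

/-- **The factorisation of `fl` through the pulled back free loops.** -/
theorem fl_eq_ph (hρ : 0 < ρ) (hU : LS.UniqSeg N ρ) (f : C(M, N)) (z : (XP k N q).Fam) :
    fl hρ hU f z = ph hρ hU f (sn f z) := by
  have h := fm hρ hU f
  unfold fl ph sn
  rw [← LMap.fam_comp]
  exact LMap.fam_congr _ _ (LEq.of_eq h.lFL fun _ _ _ _ => rfl) z

/-- The restriction of `ph` to the based loops. -/
theorem rs_ph (hρ : 0 < ρ) (hU : LS.UniqSeg N ρ) (f : C(M, N)) (x : M) (z : (YP k f q).Fam) :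
    rs x (ph hρ hU f z) = om hρ hU f x (rsY f x z) := by
  have h := fm hρ hU f
  unfold rs ph om rsY
  rw [← LMap.fam_comp, ← LMap.fam_comp]
  refine LMap.fam_congr _ _ (LEq.of_eq (LMap.comp (mono_P x) mono_FL (FMap.mono_PY _ _ _)
    (linc x) h.lphi) fun t ht w hw => ?_) z
  have e : w 0 = x := eq_left (a := x) (b := x) (t := t) hw le_rfl
  change (w 0, apx f (dl hρ hU f) (ρ / 16) w) = (x, apx f (dl hρ hU f) (ρ / 16) w)
  rw [e]

/-! #### The reversal, the scalars -/

theorem fl_rv (hρ : 0 < ρ) (hU : LS.UniqSeg N ρ) (f : C(M, N)) (z : (XP k N q).Fam) :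
    fl hρ hU f ((rvX k N q).fam z) = (rvX k M q).fam (fl hρ hU f z) :=
  (fm hρ hU f).lFL.fam_op (evOp.sp sb_self sb_empty fun _ => empty_subset _)
    (evOp.sp sb_self sb_empty fun _ => empty_subset _)
    ((fm hρ hU f).leq_rv_FL (r := ρ / 2) (by linarith) (by linarith) (by linarith) hU) z

theorem om_rv (hρ : 0 < ρ) (hU : LS.UniqSeg N ρ) (f : C(M, N)) (x : M)
    (z : (GP k (f x) q).Fam) :
    om hρ hU f x ((rvP k (f x) q).fam z) = (rvP k x q).fam (om hρ hU f x z) :=
  ((fm hρ hU f).lP x x).fam_op (opP x) (opP (f x))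
    ((fm hρ hU f).leq_rv_P (r := ρ / 2) (by linarith) (by linarith) (by linarith) hU x x) z

theorem ph_rv (hρ : 0 < ρ) (hU : LS.UniqSeg N ρ) (f : C(M, N)) (z : (YP k f q).Fam) :
    ph hρ hU f ((rvYP k f q).fam z) = (rvX k M q).fam (ph hρ hU f z) :=
  (fm hρ hU f).lphi.fam_op (evOp.sp sb_self sb_empty fun _ => empty_subset _)
    ((evOpPY f).sp sb_self sb_empty fun _ => empty_subset _)
    ((fm hρ hU f).leq_rv_phi (r := ρ / 2) (by linarith) (by linarith) (by linarith) hU) z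

theorem fl_smul (hρ : 0 < ρ) (hU : LS.UniqSeg N ρ) (f : C(M, N)) (a : k) (z : (XP k N q).Fam) :
    fl hρ hU f (PM.Fam.smul a z) = PM.Fam.smul a (fl hρ hU f z) := LMap.fam_smul _ _ _

theorem om_smul (hρ : 0 < ρ) (hU : LS.UniqSeg N ρ) (f : C(M, N)) (x : M) (a : k)
    (z : (GP k (f x) q).Fam) :
    om hρ hU f x (PM.Fam.smul a z) = PM.Fam.smul a (om hρ hU f x z) := LMap.fam_smul _ _ _

theorem ph_smul (hρ : 0 < ρ) (hU : LS.UniqSeg N ρ) (f : C(M, N)) (a : k) (z : (YP k f q).Fam) :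
    ph hρ hU f (PM.Fam.smul a z) = PM.Fam.smul a (ph hρ hU f z) := LMap.fam_smul _ _ _

end api

/-! ### Vanishing at the levels -/

section van

variable {E : Type} [PseudoMetricSpace E] {A : ℝ → Set E} {hA : Mono A} {k : Type} [Field k]
  {q : ℕ}

/-- A family which vanishes at a level vanishes below. -/
theorem fam_van (z : (PMa k A hA q).Fam) {s t : ℝ} (hs : 0 < s) (ht : 0 < t) (hst : s ≤ t)
    (h : z.z t ht = 0) : z.z s hs = 0 := by
  have e : AS.res (hA s t hs hst) q (z.z t ht) = z.z s hs := z.comp s t hs hst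
  exact e.symm.trans ((congrArg (AS.res (hA s t hs hst) q) h).trans (map_zero _))

variable {M N : Type} [MetricSpace M] [CompactSpace M] [MetricSpace N] [CompactSpace N] {ρ : ℝ}

/-- `fl`, `om` and `ph` map families which vanish at the level `A t + B` to families which vanish
at the level `t`. -/
theorem exists_van (hρ : 0 < ρ) (hU : LS.UniqSeg N ρ) (f : C(M, N)) :
    ∃ A B : ℝ, 0 < A ∧ 0 < B ∧ ∀ (k : Type) [Field k] (q : ℕ) (t s : ℝ) (ht : 0 < t)
      (hs : 0 < s), A * t + B ≤ s →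
      (∀ z : (XP k N q).Fam, z.z s hs = 0 → (fl hρ hU f z).z t ht = 0) ∧
      (∀ (x : M) (z : (GP k (f x) q).Fam), z.z s hs = 0 → (om hρ hU f x z).z t ht = 0) ∧
      ∀ z : (YP k f q).Fam, z.z s hs = 0 → (ph hρ hU f z).z t ht = 0 := by
  have h := fm hρ hU f
  have hA : 0 < ρ / 16 / dl hρ hU f := h.lam0
  refine ⟨ρ / 16 / dl hρ hU f, ρ / 16, hA, by linarith, fun k _ q t s ht hs hst => ?_⟩
  have hl : lvl (ρ / 16) (dl hρ hU f) t ≤ s := hst
  refine ⟨fun z hz => ?_, fun x z hz => ?_, fun z hz => ?_⟩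
  · exact h.lFL.fam_zero ht (fam_van z _ hs hl hz)
  · exact (h.lP x x).fam_zero ht (fam_van z _ hs hl hz)
  · exact h.lphi.fam_zero ht (fam_van z _ hs hl hz)

theorem Tra.van {N : Type} [MetricSpace N] {a a' : N} (J : Tra a a') (z : (GP k a' q).Fam)
    {t s : ℝ} (ht : 0 < t) (hs : 0 < s) (hst : t + J.C ≤ s) (hz : z.z s hs = 0) :
    (J.fam z).z t ht = 0 := J.lmap.fam_zero ht (fam_van z _ hs hst hz)

theorem Tra.van' {N : Type} [MetricSpace N] {a a' : N} (J : Tra a a') (z : (GP k a' q).Fam)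
    {t s : ℝ} (ht : 0 < t) (hs : 0 < s) (hst : t + J.C ≤ s) (hz : (J.fam z).z s hs = 0) :
    z.z t ht = 0 := by
  have h := J.lmap'.fam_zero (z := J.fam z) (hA := mono_P a') ht (fam_van _ _ hs hst hz)
  have e : (J.fam' (J.fam z)).z t ht = 0 := h
  rwa [J.fam'_fam] at e

end van

/-! ### Homotopy invariance -/

theorem Tra.trans_fam {N : Type} [MetricSpace N] {a a' a'' : N} {k : Type} [Field k] {q : ℕ}
    (J : Tra a a') (J' : Tra a' a'') (z : (GP k a'' q).Fam) :
    (J.trans J').fam z = J.fam (J'.fam z) := by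
  unfold Tra.fam
  rw [← LMap.fam_comp]
  exact LMap.fam_congr _ _ (LEq.of_eq (J.trans J').lmap fun _ _ _ _ => rfl) z

theorem Tra.refl_fam {N : Type} [MetricSpace N] {a : N} {k : Type} [Field k] {q : ℕ}
    (z : (GP k a q).Fam) : (Tra.refl a).fam z = z :=
  ((Tra.refl a).lmap.fam_congr (LMap.incl (mono_P _) (mono_P _) fun _ _ => le_rfl)
    (fun t ht => ⟨t, ht, H550.hp_refl ⟨fun x hx => hx, fun i => i.elim,
      fun ε hε => ⟨ε, hε, fun _ _ _ _ h => h⟩⟩ (mapsTo_empty _ _)⟩) z).trans (LMap.fam_id _ z)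

/-- **Close maps on the based loops.** -/
theorem FMap.leq_tra {M N : Type} [MetricSpace M] [CompactSpace M] [MetricSpace N]
    [CompactSpace N] {f f' : M → N} {φ φ' : ℝ → ℝ} {lam lam' η η' d r ρ : ℝ}
    {R R' : (ℝ →ᵇ M) → (ℝ →ᵇ N)} (h : FMap f φ lam η R) (h' : FMap f' φ' lam' η' R')
    (hd : ∀ x, dist (f' x) (f x) ≤ d) (hr : η + η' + d ≤ r) (hr0 : 0 < r) (hrρ : r < ρ)
    (hU : LS.UniqSeg N ρ) (x : M) (hx : dist (f' x) (f x) ≤ r) :
    LEq (fun t => P x x t) (fun t => P (f x) (f x) t) (fun _ => R)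
      fun t => (Tra.ofClose hU hr0 hrρ hx).I.f (φ' t) ∘ R' := by
  intro t ht
  obtain ⟨S, hS⟩ : ∃ S, S = lam * ct φ φ' lam lam' t := ⟨_, rfl⟩
  obtain ⟨S', hS'⟩ : ∃ S', S' = lam' * ct φ φ' lam lam' t := ⟨_, rfl⟩
  have h1 : φ t ≤ S := hS ▸ h.le_ct
  have h2 : φ' t ≤ S' := hS' ▸ h'.le_ct'
  have p1 := h.pos ht
  have p2 := h'.pos ht
  obtain ⟨T, hT⟩ : ∃ T, T = S + (S' + (r + r)) + r := ⟨_, rfl⟩
  refine ⟨T, by linarith, ?_⟩
  have k1 := h.hp_gen h' hd hr hr0 hrρ hU ht (isCompact_P x x t) P_subset_PP hS hS'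
    (B := P (f x) (f x) T) fun w hw => by
      rw [eq_left hw le_rfl, eq_right hw le_rfl, hT]
  have k2 : Hp (P x x t) ∅ (P (f x) (f x) T) ∅ R
      ((Tra.ofClose hU hr0 hrρ hx).I.f S' ∘ R') := by
    refine H550.hp_congr k1 (fun _ _ => rfl) fun w hw => ?_
    simp only []
    rw [eq_left hw le_rfl, eq_right hw le_rfl]
    rfl
  have k3 : Hp (P x x t) ∅ (P (f x) (f x) (S' + (r + r))) ∅
      ((Tra.ofClose hU hr0 hrρ hx).I.f (φ' t) ∘ R')
      ((Tra.ofClose hU hr0 hrρ hx).I.f S' ∘ R') :=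
    ((Tra.ofClose hU hr0 hrρ hx).I.f_nat (φ' t) S' p2 h2).comp_right (h'.map_P ht.le x x)
      (mapsTo_empty _ _)
  exact H550.hp_trans k2 (H550.hp_symm (k3.mono le_rfl le_rfl (P_mono (by linarith)) le_rfl))

section homotopy

variable {M N : Type} [MetricSpace M] [CompactSpace M] [MetricSpace N] [CompactSpace N]
  {ρ : ℝ} {k : Type} [Field k] {q : ℕ}

/-- A chain of close maps. -/
theorem exists_chain {f f' : C(M, N)} (h : f.Homotopic f') {ε : ℝ} (hε : 0 < ε) :
    ∃ (n : ℕ) (F : ℕ → C(M, N)), F 0 = f ∧ F n = f' ∧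
      ∀ i, i < n → ∀ x, dist (F (i + 1) x) (F i x) ≤ ε := by
  obtain ⟨H⟩ := h
  have huc := CompactSpace.uniformContinuous_of_continuous H.continuous
  obtain ⟨δ, hδ, hd⟩ := Metric.uniformContinuous_iff.1 huc ε hε
  obtain ⟨n, hn⟩ := exists_nat_gt (1 / δ)
  have hn0 : (0 : ℝ) < n := (by positivity : (0 : ℝ) < 1 / δ).trans hn
  have hcl : ∀ u : ℝ, cl u ∈ unitInterval := fun u => cl_mem u
  refine ⟨n, fun i => H.curry ⟨cl (i / n), hcl _⟩, ?_, ?_, fun i hi x => ?_⟩
  · ext x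
    have e : (⟨cl ((0 : ℕ) / n), hcl _⟩ : unitInterval) = 0 := by
      apply Subtype.ext
      change cl ((0 : ℕ) / n) = 0
      rw [Nat.cast_zero, zero_div, cl_le le_rfl]
    change H (⟨cl ((0 : ℕ) / n), hcl _⟩, x) = f x
    rw [e]
    exact H.apply_zero x
  · ext x
    have e : (⟨cl ((n : ℕ) / n), hcl _⟩ : unitInterval) = 1 := by
      apply Subtype.ext
      change cl ((n : ℕ) / n) = 1
      rw [div_self hn0.ne', cl_ge le_rfl]
    change H (⟨cl ((n : ℕ) / n), hcl _⟩, x) = f' x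
    rw [e]
    exact H.apply_one x
  · refine (hd (a := (⟨cl ((i + 1 : ℕ) / n), hcl _⟩, x)) (b := (⟨cl (i / n), hcl _⟩, x)) ?_).le
    rw [Prod.dist_eq, dist_self]
    refine max_lt ?_ hδ
    change |cl ((i + 1 : ℕ) / n) - cl (i / n)| < δ
    refine (abs_cl _ _).trans_lt ?_
    have e : ((i + 1 : ℕ) : ℝ) / n - i / n = 1 / n := by
      push_cast
      field_simp
      ring
    rw [e, abs_of_pos (by positivity)]
    rw [div_lt_comm₀ hn0 hδ]
    exact hn

/-- **Homotopy invariance, free loops.** -/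
theorem fl_homotopic (hρ : 0 < ρ) (hU : LS.UniqSeg N ρ) {f f' : C(M, N)} (h : f.Homotopic f')
    (z : (XP k N q).Fam) : fl hρ hU f z = fl hρ hU f' z := by
  obtain ⟨n, F, h0, hn, hF⟩ := exists_chain h (ε := ρ / 4) (by linarith)
  have key : ∀ i, i ≤ n → fl hρ hU f z = fl hρ hU (F i) z := by
    intro i
    induction i with
    | zero => intro _; rw [h0]
    | succ i ih =>
      intro hi
      rw [ih (by omega)]
      exact LMap.fam_congr _ _ ((fm hρ hU (F i)).leq_FL (fm hρ hU (F (i + 1))) (d := ρ / 4)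
        (r := ρ / 2) (hF i (by omega)) (by linarith) (by linarith) (by linarith) hU) z
  rw [key n le_rfl, hn]

/-- **Homotopy invariance, based loops.** The transport only depends on the homotopy and on `x`,
not on the field, the degree and the family. -/
theorem om_homotopic (hρ : 0 < ρ) (hU : LS.UniqSeg N ρ) {f f' : C(M, N)} (h : f.Homotopic f')
    (x : M) : ∃ J : Tra (f x) (f' x), ∀ (k : Type) [Field k] (q : ℕ) (z : (GP k (f' x) q).Fam),
      om hρ hU f' x z = om hρ hU f x (J.fam z) := by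
  obtain ⟨n, F, h0, hn, hF⟩ := exists_chain h (ε := ρ / 4) (by linarith)
  have key : ∀ i, i ≤ n → ∃ J : Tra (f x) (F i x), ∀ (k : Type) [Field k] (q : ℕ)
      (z : (GP k (F i x) q).Fam), om hρ hU (F i) x z = om hρ hU f x (J.fam z) := by
    intro i
    induction i with
    | zero =>
      intro _
      subst h0
      exact ⟨Tra.refl _, fun k _ q z => by rw [Tra.refl_fam]⟩
    | succ i ih =>
      intro hi
      obtain ⟨J, hJ⟩ := ih (by omega)
      have hd : dist (F i x) (F (i + 1) x) ≤ ρ / 2 := by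
        rw [dist_comm]
        exact (hF i (by omega) x).trans (by linarith)
      refine ⟨J.trans (Tra.ofClose hU (by linarith : 0 < ρ / 2) (by linarith) hd),
        fun k _ q z => ?_⟩
      rw [Tra.trans_fam, ← hJ k q]
      unfold om Tra.fam
      rw [← LMap.fam_comp]
      exact LMap.fam_congr _ _ ((fm hρ hU (F (i + 1))).leq_tra (fm hρ hU (F i)) (d := ρ / 4)
        (r := ρ / 2) (fun y => by
          rw [dist_comm]
          exact hF i (by omega) y) (by linarith) (by linarith) (by linarith) hU x hd) z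
  obtain ⟨J, hJ⟩ := key n le_rfl
  subst hn
  exact ⟨J, hJ⟩

end homotopy

end Vale.Agent.P216.D539
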