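import Vale.Agent.P216.MV337.Triv

/-!
# Lipschitz approximation of `w ↦ f ∘ w` on Moore-Lipschitz paths, `f : M → N` (P216-D, [D-MAP])

`apf f δ η w`: the polygon with vertices `f (w (j δ))`, `j ∈ ℤ`, the vertex `j` at time `j η`. It is
`1`-Lipschitz if `w` is and `f` moves points at distance `≤ δ` to points at distance `≤ η`;
`apf w ((η / δ) v)` is `2 η`-close to `f (w v)`; `apf w 0 = f (w 0)`.
-/

set_option linter.unusedVariables false

open Set Filter Topology BoundedContinuousFunction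

namespace Vale.Agent.P216.D539

open Vale.Agent.P216.PS Vale.Agent.P216.MV337

/-- The constants of the approximation. -/
structure Mo {M N : Type*} [MetricSpace M] [MetricSpace N] (f : M → N) (ρ η δ : ℝ) : Prop where
  cont : Continuous f
  uniq : LS.UniqSeg N ρ
  δ0 : 0 < δ
  δη : δ ≤ η
  ηρ : η < ρ
  mod : ∀ x y, dist x y ≤ δ → dist (f x) (f y) ≤ η

/-- The polygon with vertices `f (w (j δ))`. -/
noncomputable def apf {M N : Type*} [MetricSpace M] [MetricSpace N] (f : M → N) (δ η : ℝ)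
    (w : ℝ → M) (u : ℝ) : N :=
  LS.seg (f (w (⌊u / η⌋ * δ))) (f (w ((⌊u / η⌋ + 1) * δ))) (u / η - ⌊u / η⌋)

section

variable {M N : Type*} [MetricSpace M] [MetricSpace N] {f : M → N} {ρ η δ : ℝ} {w w' : ℝ → M}
  {a b : M} {s t u v : ℝ}

theorem Mo.η0 (h : Mo f ρ η δ) : 0 < η := h.δ0.trans_le h.δη

theorem Mo.step (h : Mo f ρ η δ) (hw : Lip w) (j : ℝ) :
    dist (f (w (j * δ))) (f (w ((j + 1) * δ))) ≤ η := by
  refine h.mod _ _ ((hw.le ?_).trans_eq (by ring))
  nlinarith [h.δ0]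

theorem apf_piece (hη : 0 < η) (j : ℤ) (h1 : j * η ≤ u) (h2 : u ≤ (j + 1) * η) :
    apf f δ η w u = LS.seg (f (w (j * δ))) (f (w ((j + 1) * δ))) (u / η - j) := by
  rcases h2.eq_or_lt with h2 | h2
  · have e : u / η = ((j + 1 : ℤ) : ℝ) := by
      rw [h2, mul_div_assoc, div_self hη.ne', mul_one]
      push_cast
      ring
    unfold apf
    rw [e, Int.floor_intCast, sub_self, LS.seg_zero]
    push_cast
    rw [add_sub_cancel_left, LS.seg_one]
  · have e : ⌊u / η⌋ = j := by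
      rw [Int.floor_eq_iff]
      exact ⟨(le_div_iff₀ hη).2 h1, (div_lt_iff₀ hη).2 h2⟩
    unfold apf
    rw [e]

theorem frac_mem (hη : 0 < η) {j : ℤ} (h1 : j * η ≤ u) (h2 : u ≤ (j + 1) * η) :
    u / η - j ∈ Icc (0 : ℝ) 1 :=
  ⟨sub_nonneg.2 ((le_div_iff₀ hη).2 h1), by
    have := (div_le_iff₀ hη).2 h2
    linarith⟩

theorem exists_piece (hη : 0 < η) (u : ℝ) : ∃ j : ℤ, j * η ≤ u ∧ u ≤ (j + 1) * η :=
  ⟨⌊u / η⌋, (le_div_iff₀ hη).1 (Int.floor_le _), ((div_lt_iff₀ hη).1 (Int.lt_floor_add_one _)).le⟩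

theorem Mo.dist_piece (h : Mo f ρ η δ) (hw : Lip w) {j : ℤ} (h1 : j * η ≤ u) (huv : u ≤ v)
    (h2 : v ≤ (j + 1) * η) : dist (apf f δ η w u) (apf f δ η w v) ≤ v - u := by
  have hη := h.η0
  have hs := h.step hw j
  rw [apf_piece hη j h1 (huv.trans h2), apf_piece hη j (h1.trans huv) h2,
    LS.dist_seg_seg_le h.uniq (hs.trans_lt h.ηρ) (frac_mem hη h1 (huv.trans h2)).1
      (by gcongr) (frac_mem hη (h1.trans huv) h2).2]
  have e : v / η - j - (u / η - j) = (v - u) / η := by ring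
  rw [e]
  calc (v - u) / η * dist (f (w (j * δ))) (f (w ((j + 1) * δ))) ≤ (v - u) / η * η :=
        mul_le_mul_of_nonneg_left hs (div_nonneg (by linarith) hη.le)
    _ = v - u := div_mul_cancel₀ _ hη.ne'

theorem Mo.dist_pieces (h : Mo f ρ η δ) (hw : Lip w) (n : ℕ) : ∀ {j : ℤ} {u v : ℝ},
    j * η ≤ u → u ≤ (j + 1) * η → (j + n) * η ≤ v → v ≤ (j + n + 1) * η → u ≤ v →
    dist (apf f δ η w u) (apf f δ η w v) ≤ v - u := by
  have hη := h.η0
  induction n with
  | zero =>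
    intro j u v h1 _ _ h4 huv
    refine h.dist_piece hw h1 huv ?_
    simpa using h4
  | succ n ih =>
    intro j u v h1 h2 h3 h4 huv
    push_cast at h3 h4
    have hn : (0 : ℝ) ≤ n := Nat.cast_nonneg n
    have e1 := ih (j := j) (u := u) (v := (j + n + 1) * η) h1 h2 (by nlinarith) le_rfl
      (h2.trans (by nlinarith))
    have e2 := h.dist_piece hw (j := j + n + 1) (u := (j + n + 1) * η) (v := v) (by push_cast; rfl)
      (by linarith) (by push_cast; linarith)
    linarith [dist_triangle (apf f δ η w u) (apf f δ η w ((j + n + 1) * η)) (apf f δ η w v)]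

/-- **The approximation is `1`-Lipschitz.** -/
theorem Mo.lip (h : Mo f ρ η δ) (hw : Lip w) : Lip (apf f δ η w) := by
  have hη := h.η0
  refine lip_of_le fun u v huv => ?_
  obtain ⟨j, h1, h2⟩ := exists_piece hη u
  obtain ⟨l, h3, h4⟩ := exists_piece hη v
  by_cases hjl : j ≤ l
  · obtain ⟨n, rfl⟩ := Int.le.dest hjl
    refine h.dist_pieces hw n h1 h2 ?_ ?_ huv
    · push_cast at h3; linarith
    · push_cast at h4; linarith
  · have h5 : (l : ℝ) + 1 ≤ j := by exact_mod_cast not_le.1 hjl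
    have h6 : u = v := by nlinarith
    subst h6
    rw [dist_self]
    linarith

/-- **The approximation is close to `f ∘ w`.** -/
theorem Mo.close (h : Mo f ρ η δ) (hw : Lip w) (v : ℝ) :
    dist (apf f δ η w (η / δ * v)) (f (w v)) ≤ 2 * η := by
  have hη := h.η0
  have hδ := h.δ0
  obtain ⟨j, h1, h2⟩ := exists_piece hδ v
  have e : η / δ * δ = η := div_mul_cancel₀ _ hδ.ne'
  have hk : 0 < η / δ := div_pos hη hδ
  have h3 : j * η ≤ η / δ * v := by
    have := mul_le_mul_of_nonneg_left h1 hk.le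
    rwa [mul_left_comm, e] at this
  have h4 : η / δ * v ≤ (j + 1) * η := by
    have := mul_le_mul_of_nonneg_left h2 hk.le
    rwa [mul_left_comm, e] at this
  rw [apf_piece hη j h3 h4]
  have hs := h.step hw j
  have h5 := frac_mem hη h3 h4
  have h6 : dist (f (w (j * δ))) (LS.seg (f (w (j * δ))) (f (w ((j + 1) * δ)))
      (η / δ * v / η - j)) ≤ η := by
    rw [LS.dist_left_seg h.uniq (hs.trans_lt h.ηρ) h5]
    calc _ ≤ 1 * η := mul_le_mul h5.2 hs dist_nonneg zero_le_one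
      _ = η := one_mul η
  have h7 : dist (f (w (j * δ))) (f (w v)) ≤ η :=
    h.mod _ _ ((hw.le h1).trans (by linarith))
  rw [dist_comm] at h6
  linarith [dist_triangle (LS.seg (f (w (j * δ))) (f (w ((j + 1) * δ))) (η / δ * v / η - j))
    (f (w (j * δ))) (f (w v))]

/-- The same, with the time of the approximation. -/
theorem Mo.close' (h : Mo f ρ η δ) (hw : Lip w) (u : ℝ) :
    dist (apf f δ η w u) (f (w (δ / η * u))) ≤ 2 * η := by
  have := h.close hw (δ / η * u)
  rwa [← mul_assoc, div_mul_div_comm, mul_comm η δ, div_self (mul_ne_zero h.δ0.ne' h.η0.ne'),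
    one_mul] at this

theorem apf_zero : apf f δ η w 0 = f (w 0) := by
  unfold apf
  rw [zero_div, Int.floor_zero, Int.cast_zero, zero_mul, sub_zero, LS.seg_zero]

theorem apf_left (hη : 0 < η) (hδ : 0 < δ) (ha : ∀ u ≤ 0, w u = a) (hu : u ≤ 0) :
    apf f δ η w u = f a := by
  rcases hu.eq_or_lt with rfl | hu
  · rw [apf_zero, ha 0 le_rfl]
  · have h1 : (⌊u / η⌋ : ℝ) + 1 ≤ 0 := by
      have : ⌊u / η⌋ < 0 := Int.floor_lt.2 (by
        rw [Int.cast_zero]
        exact div_neg_of_neg_of_pos hu hη)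
      exact_mod_cast this
    unfold apf
    rw [ha _ (by nlinarith), ha _ (by nlinarith), LS.seg_self]

theorem apf_right (hη : 0 < η) (hδ : 0 < δ) (hb : ∀ u, t ≤ u → w u = b)
    (hu : η / δ * t + η ≤ u) : apf f δ η w u = f b := by
  have h1 : t ≤ (⌊u / η⌋ : ℝ) * δ := by
    have h2 : u / η < ⌊u / η⌋ + 1 := Int.lt_floor_add_one _
    have h3 : η / δ * t / η + 1 ≤ u / η := by
      rw [div_add_one hη.ne']
      exact div_le_div_of_nonneg_right hu hη.le
    have h4 : η / δ * t / η = t / δ := by field_simp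
    rw [h4] at h3
    have h5 : t / δ ≤ ⌊u / η⌋ := by linarith
    exact (div_le_iff₀ hδ).1 h5
  unfold apf
  rw [hb _ h1, hb _ (by nlinarith), LS.seg_self]

end

section Compact

variable {M N : Type*} [MetricSpace M] [CompactSpace M] [MetricSpace N] [CompactSpace N]
  {f : M → N} {ρ η δ : ℝ} {w w' : ℝ →ᵇ M} {a b : M} {s t u v : ℝ}

/-- The approximation, as a point of the path spaces. -/
noncomputable def apx (f : M → N) (δ η : ℝ) (w : ℝ →ᵇ M) : ℝ →ᵇ N := mo (apf f δ η w)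

theorem Mo.apx_apply (h : Mo f ρ η δ) (hw : Lip w) (u : ℝ) : apx f δ η w u = apf f δ η w u :=
  (h.lip hw).mo_apply u

theorem Mo.lip_apx (h : Mo f ρ η δ) (hw : Lip w) : Lip (apx f δ η w) := fun u v => by
  rw [h.apx_apply hw, h.apx_apply hw]
  exact h.lip hw u v

theorem Mo.apx_zero (h : Mo f ρ η δ) (hw : Lip w) : apx f δ η w 0 = f (w 0) := by
  rw [h.apx_apply hw, apf_zero]

theorem Mo.apx_close (h : Mo f ρ η δ) (hw : Lip w) (v : ℝ) :
    dist (apx f δ η w (η / δ * v)) (f (w v)) ≤ 2 * η := by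
  rw [h.apx_apply hw]
  exact h.close hw v

theorem Mo.apx_close' (h : Mo f ρ η δ) (hw : Lip w) (u : ℝ) :
    dist (apx f δ η w u) (f (w (δ / η * u))) ≤ 2 * η := by
  rw [h.apx_apply hw]
  exact h.close' hw u

/-- The level function of the approximation. -/
noncomputable def lvl (η δ s : ℝ) : ℝ := η / δ * s + η

omit [CompactSpace M] [CompactSpace N] in
theorem Mo.le_lvl (h : Mo f ρ η δ) (hs : 0 ≤ s) : s ≤ lvl η δ s := by
  have h1 : 1 ≤ η / δ := (one_le_div h.δ0).2 h.δη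
  unfold lvl
  nlinarith [h.η0]

omit [CompactSpace M] [CompactSpace N] in
theorem Mo.lvl_mono (h : Mo f ρ η δ) (hst : s ≤ t) : lvl η δ s ≤ lvl η δ t := by
  have h1 : 0 < η / δ := div_pos h.η0 h.δ0
  unfold lvl
  nlinarith

theorem Mo.apx_P (h : Mo f ρ η δ) (hw : w ∈ P a b s) :
    apx f δ η w ∈ P (f a) (f b) (lvl η δ s) :=
  mo_mem (h.lip hw.1) (fun u hu => apf_left h.η0 h.δ0 hw.2.1 hu)
    fun u hu => apf_right h.η0 h.δ0 hw.2.2 hu

theorem Mo.apx_PP (h : Mo f ρ η δ) (hw : w ∈ PP M s) : apx f δ η w ∈ PP N (lvl η δ s) :=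
  P_subset_PP (h.apx_P (mem_P_of_PP hw))

theorem Mo.apx_FL (h : Mo f ρ η δ) (hw : w ∈ FL M s) : apx f δ η w ∈ FL N (lvl η δ s) :=
  P_subset_FL (h.apx_P (mem_FL_iff.1 hw))

theorem Mo.apf_cont (h : Mo f ρ η δ) {T : Type*} [TopologicalSpace T] {S : Set T}
    {W : T → ℝ →ᵇ M} (hW : ContinuousOn W S) (hL : ∀ x ∈ S, Lip (W x)) (u : ℝ) :
    ContinuousOn (fun x => apf f δ η (W x) u) S := by
  have hη := h.η0
  unfold apf
  refine LS.ContinuousOn.seg h.uniq (h.cont.comp_continuousOn (continuousOn_eval hW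
    continuousOn_const)) (h.cont.comp_continuousOn (continuousOn_eval hW continuousOn_const))
    continuousOn_const (fun x hx => (h.step (hL x hx) _).trans_lt h.ηρ) fun x _ => ?_
  exact ⟨sub_nonneg.2 (Int.floor_le _), by linarith [Int.lt_floor_add_one (u / η)]⟩

/-- **The approximation is continuous.** -/
theorem Mo.apx_cont (h : Mo f ρ η δ) {T : Type*} [TopologicalSpace T] {S : Set T}
    {W : T → ℝ →ᵇ M} (hs : 0 ≤ s) (hW : ContinuousOn W S) (hm : ∀ x ∈ S, W x ∈ PP M s) :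
    ContinuousOn (fun x => apx f δ η (W x)) S := by
  refine continuousOn_of_eval (hs.trans (h.le_lvl hs)) (fun x hx => h.apx_PP (hm x hx))
    fun u => ?_
  exact (h.apf_cont hW (fun x hx => (hm x hx).1) u).congr fun x hx => h.apx_apply (hm x hx).1 u

/-- Existence of the constants. -/
theorem exists_mo (hf : Continuous f) (hU : LS.UniqSeg N ρ) (hη : 0 < η) (hηρ : η < ρ) :
    ∃ δ, Mo f ρ η δ := by
  have huc := CompactSpace.uniformContinuous_of_continuous hf
  obtain ⟨δ, hδ, H⟩ := Metric.uniformContinuous_iff.1 huc η hη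
  exact ⟨min (δ / 2) η, hf, hU, lt_min (by linarith) hη, min_le_right _ _, hηρ, fun x y hxy =>
    (H (lt_of_le_of_lt (hxy.trans (min_le_left _ _)) (by linarith))).le⟩

end Compact

end Vale.Agent.P216.D539
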