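import Vale.Agent.P216.D539.FMap
import Vale.Agent.P216.H901.Sweep
import Vale.Agent.P216.H754B.Rev

/-!
# P216-D, [D-MAP]: close families of Moore-Lipschitz paths, moving end points

* `sgt x y r`: the short segment from `x` to `y` in time `r`.
* `cv r S a b a' b' w`: `w ∈ P a' b' S` completed by the segments to a path from `a` to `b`.
* `hp_cv`: if `F x` and `F' x` are `r`-close along time changes, then `F` is homotopic to
  `cv ∘ F'`; `hp_shrink`: as free loops, `cv ∘ F'` is homotopic to `F'`.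
-/

set_option linter.all false

open Set Filter Topology BoundedContinuousFunction

namespace Vale.Agent.P216.D539

open Vale.Agent.P216.PS Vale.Agent.P216.MV337 Vale.Agent.P216.C337 Vale.Agent.P216.D337
open Vale.Agent.P216.AS (IsMap IsHtpy)
open Vale.Agent.P216.H901 (Hp Mono tr on PMa Ret Cls swp hp_sweep)

/-! ### Clamping, short segments -/

/-- clamping to `[0, 1]` -/
noncomputable def cl (u : ℝ) : ℝ := max 0 (min 1 u)

theorem cl_mem (u : ℝ) : cl u ∈ Icc (0 : ℝ) 1 := ⟨le_max_left _ _, max_le zero_le_one (min_le_left _ _)⟩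

theorem cl_le {u : ℝ} (hu : u ≤ 0) : cl u = 0 := max_eq_left ((min_le_right _ _).trans hu)

theorem cl_ge {u : ℝ} (hu : 1 ≤ u) : cl u = 1 := by
  unfold cl
  rw [min_eq_left hu, max_eq_right zero_le_one]

theorem cl_id {u : ℝ} (h0 : 0 ≤ u) (h1 : u ≤ 1) : cl u = u := by
  unfold cl
  rw [min_eq_right h1, max_eq_right h0]

theorem continuous_cl : Continuous cl := by
  unfold cl
  fun_prop

theorem abs_cl (u v : ℝ) : |cl u - cl v| ≤ |u - v| := by
  unfold cl
  rw [max_comm 0, max_comm 0]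
  refine (abs_max_sub_max_le_abs _ _ _).trans ?_
  refine (abs_min_sub_min_le_max _ _ _ _).trans (max_le ?_ le_rfl)
  rw [sub_self, abs_zero]
  exact abs_nonneg _

section sgt

variable {N : Type*} [MetricSpace N] {ρ r u v : ℝ} {x y : N}

/-- The segment from `x` to `y` in time `r`. -/
noncomputable def sgt (x y : N) (r u : ℝ) : N := LS.seg x y (cl (u / r))

theorem sgt_le (hr : 0 < r) (hu : u ≤ 0) : sgt x y r u = x := by
  rw [sgt, cl_le (div_nonpos_of_nonpos_of_nonneg hu hr.le), LS.seg_zero]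

theorem sgt_zero (hr : 0 < r) : sgt x y r 0 = x := sgt_le hr le_rfl

theorem sgt_ge (hr : 0 < r) (hu : r ≤ u) : sgt x y r u = y := by
  rw [sgt, cl_ge ((one_le_div hr).2 hu), LS.seg_one]

theorem sgt_lip (hU : LS.UniqSeg N ρ) (hr : 0 < r) (hrρ : r < ρ) (hd : dist x y ≤ r) :
    Lip (sgt x y r) := fun u v => by
  unfold sgt
  rw [LS.dist_seg_seg hU (hd.trans_lt hrρ) (cl_mem _) (cl_mem _)]
  have h1 := abs_cl (u / r) (v / r)
  rw [← sub_div, abs_div, abs_of_pos hr] at h1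
  calc |cl (u / r) - cl (v / r)| * dist x y ≤ |u - v| / r * r :=
        mul_le_mul h1 hd dist_nonneg (div_nonneg (abs_nonneg _) hr.le)
    _ = |u - v| := div_mul_cancel₀ _ hr.ne'

theorem dist_sgt_right (hU : LS.UniqSeg N ρ) (hrρ : r < ρ) (hd : dist x y ≤ r) (u : ℝ) :
    dist (sgt x y r u) y ≤ r := by
  unfold sgt
  rw [LS.dist_seg_right hU (hd.trans_lt hrρ) (cl_mem _)]
  have h1 := (cl_mem (u / r)).1
  have h2 : (1 - cl (u / r)) * dist x y ≤ 1 * r :=
    mul_le_mul (by linarith) hd dist_nonneg zero_le_one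
  linarith

theorem sgt_cont [CompactSpace N] (hU : LS.UniqSeg N ρ) (hrρ : r < ρ) {T : Type*}
    [TopologicalSpace T] {S : Set T} {f g : T → N} {φ : T → ℝ} (hf : ContinuousOn f S)
    (hg : ContinuousOn g S) (hφ : ContinuousOn φ S) (hd : ∀ x ∈ S, dist (f x) (g x) ≤ r) :
    ContinuousOn (fun x => sgt (f x) (g x) r (φ x)) S :=
  LS.ContinuousOn.seg hU hf hg (continuous_cl.comp_continuousOn (hφ.div_const r))
    (fun x hx => (hd x hx).trans_lt hrρ) fun x _ => cl_mem _

end sgt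

/-! ### Completing by short segments -/

section cv

variable {N : Type} [MetricSpace N] [CompactSpace N] {ρ r S S' s u : ℝ} {σ τ : ℝ → ℝ}
  {a b a' b' : N} {w v : ℝ →ᵇ N}

/-- `w` from `a'` to `b'`, completed by the segments to a path from `a` to `b`. -/
noncomputable def cv (r S : ℝ) (a b a' b' : N) (w : ℝ →ᵇ N) : ℝ →ᵇ N :=
  mo (c2 r S (sgt a' a r) (sgt b' b r) w)

theorem cv_lip (hU : LS.UniqSeg N ρ) (hr : 0 < r) (hrρ : r < ρ) (hS : 0 ≤ S)
    (hw : w ∈ P a' b' S) (ha : dist a' a ≤ r) (hb : dist b' b ≤ r) :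
    Lip (c2 r S (sgt a' a r) (sgt b' b r) w) :=
  lip_c2 (sgt_lip hU hr hrρ ha) (sgt_lip hU hr hrρ hb) hw.1 hS
    (by rw [eq_left hw le_rfl, sgt_zero hr]) (by rw [eq_right hw le_rfl, sgt_zero hr])

theorem cv_apply (hU : LS.UniqSeg N ρ) (hr : 0 < r) (hrρ : r < ρ) (hS : 0 ≤ S)
    (hw : w ∈ P a' b' S) (ha : dist a' a ≤ r) (hb : dist b' b ≤ r) (u : ℝ) :
    cv r S a b a' b' w u = c2 r S (sgt a' a r) (sgt b' b r) w u :=
  (cv_lip hU hr hrρ hS hw ha hb).mo_apply u

theorem cv_mem (hU : LS.UniqSeg N ρ) (hr : 0 < r) (hrρ : r < ρ) (hS : 0 ≤ S)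
    (hw : w ∈ P a' b' S) (ha : dist a' a ≤ r) (hb : dist b' b ≤ r) :
    cv r S a b a' b' w ∈ P a b (S + (r + r)) :=
  mo_c2_mem (sgt_lip hU hr hrρ ha) (sgt_lip hU hr hrρ hb) hw.1 hS hr.le hr.le
    (by rw [eq_left hw le_rfl, sgt_zero hr]) (by rw [eq_right hw le_rfl, sgt_zero hr])
    (fun _ h => sgt_ge hr h) fun _ h => sgt_ge hr h

/-- Continuity of the completion. -/
theorem cv_cont (hU : LS.UniqSeg N ρ) (hr : 0 < r) (hrρ : r < ρ) (hS : 0 ≤ S) {T : Type*}
    [TopologicalSpace T] {A : Set T} {F : T → ℝ →ᵇ N} {a b a' b' : T → N}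
    (hF : ContinuousOn F A) (ha : ContinuousOn a A) (hb : ContinuousOn b A)
    (hm : ∀ x ∈ A, F x ∈ P (a' x) (b' x) S) (hda : ∀ x ∈ A, dist (a' x) (a x) ≤ r)
    (hdb : ∀ x ∈ A, dist (b' x) (b x) ≤ r) :
    ContinuousOn (fun x => cv r S (a x) (b x) (a' x) (b' x) (F x)) A := by
  have ha' : ContinuousOn a' A :=
    (continuousOn_eval (f := fun _ => (0 : ℝ)) hF continuousOn_const).congr fun x hx =>
      (eq_left (hm x hx) le_rfl).symm
  have hb' : ContinuousOn b' A :=
    (continuousOn_eval (f := fun _ => S) hF continuousOn_const).congr fun x hx =>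
      (eq_right (hm x hx) le_rfl).symm
  have h := continuousOn_mo_c2 (B := A) (X := fun _ : T => (0 : ℝ)) (W := F) (τ := fun _ => S)
    (μ := fun _ => r) (Pf := fun x => sgt (a' x) (a x) r) (Qf := fun x => sgt (b' x) (b x) r)
    (C := S + (r + r)) continuousOn_const hF continuousOn_const continuousOn_const
    (fun φ hφ => sgt_cont hU hrρ ha' ha hφ hda) (fun φ hφ => sgt_cont hU hrρ hb' hb hφ hdb)
    (fun _ _ => hS) (fun x hx => by rw [eq_left (hm x hx) le_rfl, sgt_zero hr])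
    (fun x hx => by rw [eq_right (hm x hx) le_rfl, sgt_zero hr])
    (fun x hx => sgt_lip hU hr hrρ (hda x hx)) (fun x hx => sgt_lip hU hr hrρ (hdb x hx))
    (fun x hx => (hm x hx).1) (by linarith)
    fun x hx => P_subset_PP (cv_mem hU hr hrρ hS (hm x hx) (hda x hx) (hdb x hx))
  exact continuous_snd.comp_continuousOn h

/-- The time changes of the completion. -/
noncomputable def σc (σ : ℝ → ℝ) (l : ℝ) : ℝ := σ (cl (3 * l - 1))

/-- The time changes of the completion. -/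
noncomputable def τc (r : ℝ) (τ : ℝ → ℝ) (l : ℝ) : ℝ :=
  r * cl (3 * l) + τ (cl (3 * l - 1)) + r * cl (3 * l - 2)

theorem ret_c (hr : 0 ≤ r) (h : Ret S S' σ τ) : Ret S (S' + (r + r)) (σc σ) (τc r τ) where
  σ_cont := h.σ_cont.comp (continuous_cl.comp (by fun_prop)).continuousOn fun l _ => cl_mem _
  τ_cont := by
    have h1 : ContinuousOn (fun l : ℝ => τ (cl (3 * l - 1))) (Icc 0 1) :=
      h.τ_cont.comp (continuous_cl.comp (by fun_prop)).continuousOn fun l _ => cl_mem _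
    have h2 : Continuous fun l : ℝ => r * cl (3 * l) :=
      continuous_const.mul (continuous_cl.comp (by fun_prop))
    have h3 : Continuous fun l : ℝ => r * cl (3 * l - 2) :=
      continuous_const.mul (continuous_cl.comp (by fun_prop))
    exact (h2.continuousOn.add h1).add h3.continuousOn
  σ0 := by
    rw [σc, cl_le (by norm_num), h.σ0]
  τ0 := by
    rw [τc, cl_le (by norm_num : 3 * (0:ℝ) ≤ 0), cl_le (by norm_num), cl_le (by norm_num), h.τ0]
    ring
  σ1 := by
    rw [σc, cl_ge (by norm_num), h.σ1]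
  τ1 := by
    rw [τc, cl_ge (by norm_num), cl_ge (by norm_num), cl_ge (by norm_num), h.τ1]
    ring
  σ_mem l _ := h.σ_mem _ (cl_mem _)
  τ_mem l _ := by
    have h1 := cl_mem (3 * l)
    have h2 := cl_mem (3 * l - 2)
    have h3 := h.τ_mem _ (cl_mem (3 * l - 1))
    unfold τc
    constructor
    · have := mul_nonneg hr h1.1
      have := mul_nonneg hr h2.1
      linarith [h3.1]
    · have := mul_le_mul_of_nonneg_left h1.2 hr
      have := mul_le_mul_of_nonneg_left h2.2 hr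
      linarith [h3.2]

/-- The completed path is close. -/
theorem cls_c (hU : LS.UniqSeg N ρ) (hr : 0 < r) (hrρ : r < ρ) (h : Ret S S' σ τ)
    (hv : v ∈ P a b S) (hw : w ∈ P a' b' S') (hc : Cls r σ τ v w) :
    Cls r (σc σ) (τc r τ) v (cv r S' a b a' b' w) := by
  have hS' := h.s'0
  have ha : dist a' a ≤ r := by
    have := hc 0 ⟨le_rfl, zero_le_one⟩
    rwa [h.τ0, h.σ0, eq_left hw le_rfl, eq_left hv le_rfl] at this
  have hb : dist b' b ≤ r := by
    have := hc 1 ⟨zero_le_one, le_rfl⟩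
    rwa [h.τ1, h.σ1, eq_right hw le_rfl, eq_right hv le_rfl] at this
  have e0 : w 0 = sgt a' a r 0 := by rw [eq_left hw le_rfl, sgt_zero hr]
  have e1 : w S' = sgt b' b r 0 := by rw [eq_right hw le_rfl, sgt_zero hr]
  intro l hl
  rw [cv_apply hU hr hrρ hS' hw ha hb]
  rcases le_total (3 * l) 1 with h1 | h1
  · have f1 : τc r τ l = r * (3 * l) := by
      rw [τc, cl_id (by linarith [hl.1]) h1, cl_le (by linarith : 3 * l - 1 ≤ 0),
        cl_le (by linarith : 3 * l - 2 ≤ 0), h.τ0]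
      ring
    have f2 : σc σ l = 0 := by
      rw [σc, cl_le (by linarith : 3 * l - 1 ≤ 0), h.σ0]
    have f3 : r * (3 * l) ≤ r := by nlinarith
    rw [f1, f2, c2_one f3, eq_left hv le_rfl]
    exact dist_sgt_right hU hrρ ha _
  rcases le_total (3 * l) 2 with h2 | h2
  · have f1 : τc r τ l = r + τ (3 * l - 1) := by
      rw [τc, cl_ge h1, cl_id (by linarith) (by linarith), cl_le (by linarith : 3 * l - 2 ≤ 0)]
      ring
    have f2 : σc σ l = σ (3 * l - 1) := by
      rw [σc, cl_id (by linarith) (by linarith)]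
    have hl' : 3 * l - 1 ∈ Icc (0 : ℝ) 1 := ⟨by linarith, by linarith⟩
    have f3 := h.τ_mem _ hl'
    rw [f1, f2, c2_two e0 (by linarith [f3.1]) (by linarith [f3.2]), add_sub_cancel_left]
    exact hc _ hl'
  · have f1 : τc r τ l = r + S' + r * (3 * l - 2) := by
      rw [τc, cl_ge h1, cl_ge (by linarith : 1 ≤ 3 * l - 1), cl_id (by linarith)
        (by linarith [hl.2]), h.τ1]
      ring
    have f2 : σc σ l = S := by
      rw [σc, cl_ge (by linarith : 1 ≤ 3 * l - 1), h.σ1]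
    have f3 : 0 ≤ r * (3 * l - 2) := mul_nonneg hr.le (by linarith)
    rw [f1, f2, c2_three e0 hS' e1 (by linarith), eq_right hv le_rfl]
    exact dist_sgt_right hU hrρ hb _

/-- **Close families are homotopic after completion.** -/
theorem hp_cv {E : Type} [PseudoMetricSpace E] {A : Set E} {B : Set (ℝ →ᵇ N)}
    (hU : LS.UniqSeg N ρ) (hr : 0 < r) (hrρ : r < ρ) (hA : IsCompact A) (h : Ret S S' σ τ)
    {F F' : E → ℝ →ᵇ N} {a b a' b' : E → N} (hF : ContinuousOn F A) (hF' : ContinuousOn F' A)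
    (hm : ∀ x ∈ A, F x ∈ P (a x) (b x) S) (hm' : ∀ x ∈ A, F' x ∈ P (a' x) (b' x) S')
    (hc : ∀ x ∈ A, Cls r σ τ (F x) (F' x))
    (hB : ∀ x ∈ A, P (a x) (b x) (S + (S' + (r + r)) + r) ⊆ B) :
    Hp A ∅ B ∅ F fun x => cv r S' (a x) (b x) (a' x) (b' x) (F' x) := by
  have hS' := h.s'0
  have hda : ∀ x ∈ A, dist (a' x) (a x) ≤ r := fun x hx => by
    have := hc x hx 0 ⟨le_rfl, zero_le_one⟩
    rwa [h.τ0, h.σ0, eq_left (hm' x hx) le_rfl, eq_left (hm x hx) le_rfl] at this
  have hdb : ∀ x ∈ A, dist (b' x) (b x) ≤ r := fun x hx => by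
    have := hc x hx 1 ⟨zero_le_one, le_rfl⟩
    rwa [h.τ1, h.σ1, eq_right (hm' x hx) le_rfl, eq_right (hm x hx) le_rfl] at this
  have ha : ContinuousOn a A :=
    (continuousOn_eval (f := fun _ => (0 : ℝ)) hF continuousOn_const).congr fun x hx =>
      (eq_left (hm x hx) le_rfl).symm
  have hb : ContinuousOn b A :=
    (continuousOn_eval (f := fun _ => S) hF continuousOn_const).congr fun x hx =>
      (eq_right (hm x hx) le_rfl).symm
  refine hp_sweep hU hr hrρ hA (empty_subset _) (ret_c hr.le h) (a := a) (b := b) hF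
    (cv_cont hU hr hrρ hS' hF' ha hb hm' hda hdb) hm
    (fun x hx => cv_mem hU hr hrρ hS' (hm' x hx) (hda x hx) (hdb x hx))
    (fun x hx => cls_c hU hr hrρ h (hm x hx) (hm' x hx) (hc x hx)) hB fun x hx => hx.elim

/-- **As free loops, the completion is homotopic to the identity.** -/
theorem hp_shrink {E : Type} [PseudoMetricSpace E] {A : Set E} {B : Set (ℝ →ᵇ N)}
    (hU : LS.UniqSeg N ρ) (hr : 0 < r) (hrρ : r < ρ) (hS : 0 ≤ S) (hA : IsCompact A)
    {F : E → ℝ →ᵇ N} {a a' : E → N} (hF : ContinuousOn F A) (ha : ContinuousOn a A)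
    (hm : ∀ x ∈ A, F x ∈ P (a' x) (a' x) S) (hda : ∀ x ∈ A, dist (a' x) (a x) ≤ r)
    (hB : ∀ x ∈ A, ∀ z, P z z (S + (r + r)) ⊆ B) :
    Hp A ∅ B ∅ F fun x => cv r S (a x) (a x) (a' x) (a' x) (F x) := by
  have ha' : ContinuousOn a' A :=
    (continuousOn_eval (f := fun _ => (0 : ℝ)) hF continuousOn_const).congr fun x hx =>
      (eq_left (hm x hx) le_rfl).symm
  -- the segment stopped at the time `l r`
  obtain ⟨q, hq⟩ : ∃ q : ℝ × E → ℝ → N, q = fun p u =>
    sgt (a' p.2) (a p.2) r (min u (p.1 * r)) := ⟨_, rfl⟩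
  have q0 : ∀ p : ℝ × E, 0 ≤ p.1 → q p 0 = a' p.2 := fun p h0 => by
    rw [hq]
    exact sgt_le hr (min_le_left _ _)
  have ql : ∀ p : ℝ × E, p.2 ∈ A → Lip (q p) := fun p hp => by
    rw [hq]
    refine (sgt_lip hU hr hrρ (hda _ hp)).comp fun u v => ?_
    refine (abs_min_sub_min_le_max _ _ _ _).trans (max_le le_rfl ?_)
    rw [sub_self, abs_zero]
    exact abs_nonneg _
  have qr : ∀ p : ℝ × E, ∀ u, p.1 * r ≤ u → q p u = sgt (a' p.2) (a p.2) r (p.1 * r) :=
    fun p u hu => by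
    rw [hq]
    change sgt _ _ _ (min u (p.1 * r)) = _
    rw [min_eq_right hu]
  obtain ⟨D, hD⟩ : ∃ D : ℝ × E → ℝ →ᵇ N, D = fun p => mo (c2 (p.1 * r) S (q p) (q p) (F p.2)) :=
    ⟨_, rfl⟩
  have hmem : ∀ p ∈ Icc (0 : ℝ) 1 ×ˢ A, D p ∈ P (sgt (a' p.2) (a p.2) r (p.1 * r))
      (sgt (a' p.2) (a p.2) r (p.1 * r)) (S + (r + r)) := by
    rintro p ⟨hp, hx⟩
    have hl : 0 ≤ p.1 * r := mul_nonneg hp.1 hr.le
    have hl' : p.1 * r ≤ r := mul_le_of_le_one_left hr.le hp.2
    rw [hD]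
    refine P_mono (by linarith : S + (p.1 * r + p.1 * r) ≤ S + (r + r)) ?_
    exact mo_c2_mem (ql p hx) (ql p hx) (hm _ hx).1 hS hl hl
      (by rw [q0 p hp.1, eq_left (hm _ hx) le_rfl])
      (by rw [q0 p hp.1, eq_right (hm _ hx) le_rfl]) (qr p) (qr p)
  refine MV337.hp_of_cont hA (F := D) ?_ (fun l hl x hx => hB x hx _ (hmem (l, x) ⟨hl, hx⟩))
    (fun l hl x hx => hx.elim) (fun x hx => ?_) fun x hx => ?_
  · have c1 : ContinuousOn (fun p : ℝ × E => F p.2) (Icc (0 : ℝ) 1 ×ˢ A) :=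
      hF.comp continuousOn_snd fun p hp => hp.2
    have c2 : ContinuousOn (fun p : ℝ × E => a p.2) (Icc (0 : ℝ) 1 ×ˢ A) :=
      ha.comp continuousOn_snd fun p hp => hp.2
    have c3 : ContinuousOn (fun p : ℝ × E => a' p.2) (Icc (0 : ℝ) 1 ×ˢ A) :=
      ha'.comp continuousOn_snd fun p hp => hp.2
    have c4 : ContinuousOn (fun p : ℝ × E => p.1 * r) (Icc (0 : ℝ) 1 ×ˢ A) :=
      continuousOn_fst.mul continuousOn_const
    have hqc : ∀ φ : ℝ × E → ℝ, ContinuousOn φ (Icc (0 : ℝ) 1 ×ˢ A) →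
        ContinuousOn (fun p => q p (φ p)) (Icc (0 : ℝ) 1 ×ˢ A) := fun φ hφ => by
      rw [hq]
      exact sgt_cont hU hrρ c3 c2 (hφ.inf c4) fun p hp => hda _ hp.2
    have h := continuousOn_mo_c2 (B := Icc (0 : ℝ) 1 ×ˢ A) (X := fun _ : ℝ × E => (0 : ℝ))
      (W := fun p => F p.2) (τ := fun _ => S) (μ := fun p => p.1 * r) (Pf := q) (Qf := q)
      (C := S + (r + r)) continuousOn_const c1 continuousOn_const c4 hqc hqc (fun _ _ => hS)
      (fun p hp => by rw [q0 p hp.1.1, eq_left (hm _ hp.2) le_rfl])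
      (fun p hp => by rw [q0 p hp.1.1, eq_right (hm _ hp.2) le_rfl])
      (fun p hp => ql p hp.2) (fun p hp => ql p hp.2) (fun p hp => (hm _ hp.2).1)
      (by linarith) fun p hp => by
        have := hmem p hp
        rw [hD] at this
        exact P_subset_PP this
    rw [hD]
    exact continuous_snd.comp_continuousOn h
  · rw [hD]
    change mo (c2 (0 * r) S (q (0, x)) (q (0, x)) (F x)) = F x
    have e : q (0, x) = fun _ => a' x := by
      funext u
      rw [hq]
      change sgt (a' x) (a x) r (min u (0 * r)) = a' x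
      exact sgt_le hr ((min_le_right _ _).trans (by rw [zero_mul]))
    rw [e]
    have e3 : c2 (0 * r) S (fun _ => a' x) (fun _ => a' x) (F x) = fun u => F x u := by
      funext u
      rw [c2_const (F x) _ _ hS (hm x hx).2.1 (hm x hx).2.2, zero_mul, sub_zero]
    rw [e3, mo_self]
  · rw [hD]
    change mo (c2 (1 * r) S (q (1, x)) (q (1, x)) (F x)) = cv r S (a x) (a x) (a' x) (a' x) (F x)
    have e : q (1, x) = sgt (a' x) (a x) r := by
      funext u
      rw [hq]
      change sgt (a' x) (a x) r (min u (1 * r)) = _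
      rw [one_mul]
      rcases le_total u r with h | h
      · rw [min_eq_left h]
      · rw [min_eq_right h, sgt_ge hr le_rfl, sgt_ge hr h]
    rw [e, one_mul]
    rfl

end cv

end Vale.Agent.P216.D539
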