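import Vale.Agent.P216.H901.ShOp
import Vale.Agent.P216.H901.Fam
import Vale.Agent.P216.H550.Hp
import Vale.Agent.P216.H754B.Wop

/-!
# P216-D, [D-MAP]: maps of increasing families of spaces, the induced maps on compatible families

`LMap A B φ R`: `R s` maps the level `s` of `A` to the level `φ s` of `B`, compatible up to
homotopy. `LMap.fam`: the pull-back of a compatible family. It only depends on the homotopy classes
of the `R s`, in arbitrarily high levels (`LMap.fam_congr`), it is functorial (`LMap.fam_comp`) and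
commutes with the scalars and with the natural operators (`LMap.fam_op`).
-/

set_option linter.all false

open Set

namespace Vale.Agent.P216.D539

open Vale.Agent.P216.AS Vale.Agent.P216.H901 Vale.Agent.P216.H754B

variable {E E' E'' : Type} [PseudoMetricSpace E] [PseudoMetricSpace E'] [PseudoMetricSpace E'']
  {k : Type} [Field k]

section basic

variable {A A₁ : Set E} {B B₁ : Set E'} {C : Set E''} {f g : E → E'} {n : ℕ}

theorem res_pull (h : IsMap (tr E) (tr E') A B f) (hA : A₁ ⊆ A)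
    (h' : IsMap (tr E) (tr E') A₁ B f) (x : Ha (tr E') (on k) B n) :
    res hA n (pull (on k) h n x) = pull (on k) h' n x := by
  obtain ⟨c, hc, rfl⟩ := H.exists_mk x
  rfl

theorem pull_res (h : IsMap (tr E) (tr E') A B f) (hB : B ⊆ B₁)
    (h' : IsMap (tr E) (tr E') A B₁ f) (x : Ha (tr E') (on k) B₁ n) :
    pull (on k) h n (res hB n x) = pull (on k) h' n x := by
  obtain ⟨c, hc, rfl⟩ := H.exists_mk x
  rfl

theorem pull_comp {g : E' → E''} (h : IsMap (tr E) (tr E') A B f)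
    (h' : IsMap (tr E') (tr E'') B C g) (h'' : IsMap (tr E) (tr E'') A C (g ∘ f))
    (x : Ha (tr E'') (on k) C n) :
    pull (on k) h n (pull (on k) h' n x) = pull (on k) h'' n x := by
  obtain ⟨c, hc, rfl⟩ := H.exists_mk x
  rfl

theorem isMap_comp {g : E' → E''} (h : IsMap (tr E) (tr E') A B f)
    (h' : IsMap (tr E') (tr E'') B C g) : IsMap (tr E) (tr E'') A C (g ∘ f) where
  mapsX x hx := h'.mapsX (h.mapsX hx)
  eqv i := i.elim
  uc ε hε := by
    obtain ⟨δ, hδ, h1⟩ := h'.uc ε hε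
    obtain ⟨δ', hδ', h2⟩ := h.uc δ hδ
    exact ⟨δ', hδ', fun x hx y hy hxy =>
      h1 _ (h.mapsX hx) _ (h.mapsX hy) (h2 x hx y hy hxy)⟩

theorem isMap_mono (h : IsMap (tr E) (tr E') A B f) (hA : A₁ ⊆ A) (hB : B ⊆ B₁) :
    IsMap (tr E) (tr E') A₁ B₁ f where
  mapsX x hx := hB (h.mapsX (hA hx))
  eqv i := i.elim
  uc ε hε := by
    obtain ⟨δ, hδ, h1⟩ := h.uc ε hε
    exact ⟨δ, hδ, fun x hx y hy => h1 x (hA hx) y (hA hy)⟩

theorem pull_hp (hf : IsMap (tr E) (tr E') A B f) (hg : IsMap (tr E) (tr E') A B g)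
    (H : Hp A ∅ B ∅ f g) (x : Ha (tr E') (on k) B n) :
    pull (on k) hf n x = pull (on k) hg n x := by
  obtain ⟨D, hD, -, h0, h1⟩ := H
  rw [pull_congr (χ := on k) (n := n) hf hD.zero h0.symm,
    pull_congr (χ := on k) (n := n) hg hD.one h1.symm, pull_homotopy hD n]

end basic

section families

variable {A : Set E} {B : ℝ → Set E'} {f g : E → E'} {hB : Mono B} {q : ℕ}

/-- The level of the family does not matter. -/
theorem pull_fam (z : (PMa k B hB q).Fam) {t t' : ℝ} (ht : 0 < t) (ht' : 0 < t')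
    (h : IsMap (tr E) (tr E') A (B t) f) (h' : IsMap (tr E) (tr E') A (B t') f) :
    pull (on k) h q (z.z t ht) = pull (on k) h' q (z.z t' ht') := by
  have key : ∀ {s u : ℝ} (hs : 0 < s) (hu : 0 < u) (hsu : s ≤ u)
      (a : IsMap (tr E) (tr E') A (B s) f) (b : IsMap (tr E) (tr E') A (B u) f),
      pull (on k) a q (z.z s hs) = pull (on k) b q (z.z u hu) := by
    intro s u hs hu hsu a b
    have e3 : res (hB s u hs hsu) q (z.z u hu) = z.z s hs := z.comp s u hs hsu
    have e2 : pull (on k) a q (res (hB s u hs hsu) q (z.z u hu)) = pull (on k) b q (z.z u hu) :=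
      pull_res _ _ b _
    exact (congrArg (pull (on k) a q) e3.symm).trans e2
  rcases le_total t t' with h0 | h0
  · exact key ht ht' h0 h h'
  · exact (key ht' ht h0 h' h).symm

/-- Maps which are homotopic in a high level. -/
theorem pull_fam_hp (z : (PMa k B hB q).Fam) {t t' T : ℝ} (ht : 0 < t) (ht' : 0 < t')
    (hT : 0 < T) (h : IsMap (tr E) (tr E') A (B t) f) (h' : IsMap (tr E) (tr E') A (B t') g)
    (H : Hp A ∅ (B T) ∅ f g) :
    pull (on k) h q (z.z t ht) = pull (on k) h' q (z.z t' ht') := by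
  rw [pull_fam z ht hT h (H550.hp_isMap_left H), pull_fam z ht' hT h' (H550.hp_isMap_right H)]
  exact pull_hp _ _ H _

end families

/-- **Maps of the levels, compatible up to homotopy.** -/
structure LMap (A : ℝ → Set E) (B : ℝ → Set E') (φ : ℝ → ℝ) (R : ℝ → E → E') : Prop where
  pos : ∀ s, 0 < s → 0 < φ s
  mono : ∀ s t, 0 < s → s ≤ t → φ s ≤ φ t
  map : ∀ s, 0 < s → IsMap (tr E) (tr E') (A s) (B (φ s)) (R s)
  nat : ∀ s t, 0 < s → s ≤ t → ∃ T, 0 < T ∧ Hp (A s) ∅ (B T) ∅ (R s) (R t)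

/-- **Homotopic, in high levels.** -/
def LEq (A : ℝ → Set E) (B : ℝ → Set E') (R R' : ℝ → E → E') : Prop :=
  ∀ s, 0 < s → ∃ T, 0 < T ∧ Hp (A s) ∅ (B T) ∅ (R s) (R' s)

namespace LMap

variable {A : ℝ → Set E} {B : ℝ → Set E'} {C : ℝ → Set E''} {φ ψ : ℝ → ℝ} {R R' : ℝ → E → E'}
  {hA : Mono A} {hB : Mono B} {hC : Mono C} {q : ℕ}

/-- One map for all levels. -/
theorem const {R : E → E'} (hA : Mono A) (hB : Mono B) (pos : ∀ s, 0 < s → 0 < φ s)
    (mono : ∀ s t, 0 < s → s ≤ t → φ s ≤ φ t)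
    (map : ∀ s, 0 < s → IsMap (tr E) (tr E') (A s) (B (φ s)) R) :
    LMap A B φ fun _ => R where
  pos := pos
  mono := mono
  map := map
  nat s t hs h := ⟨φ s, pos s hs, H550.hp_refl (map s hs) (mapsTo_empty _ _)⟩

theorem map_le (h : LMap A B φ R) (hB : Mono B) {s t : ℝ} (hs : 0 < s) (hst : φ s ≤ t) :
    IsMap (tr E) (tr E') (A s) (B t) (R s) :=
  isMap_mono (h.map s hs) le_rfl (hB _ _ (h.pos s hs) hst)

theorem map_sub (h : LMap A B φ R) (hA : Mono A) {s t : ℝ} (hs : 0 < s) (hst : s ≤ t) :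
    IsMap (tr E) (tr E') (A s) (B (φ t)) (R t) :=
  isMap_mono (h.map t (hs.trans_le hst)) (hA s t hs hst) le_rfl

theorem comp (hA : Mono A) (hB : Mono B) (hC : Mono C) {S : ℝ → E' → E''} (h : LMap A B φ R)
    (h' : LMap B C ψ S) : LMap A C (fun s => ψ (φ s)) (fun s => S (φ s) ∘ R s) where
  pos s hs := h'.pos _ (h.pos s hs)
  mono s t hs hst := h'.mono _ _ (h.pos s hs) (h.mono s t hs hst)
  map s hs := isMap_comp (h.map s hs) (h'.map _ (h.pos s hs))
  nat s t hs hst := by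
    have ht := hs.trans_le hst
    have ps := h.pos s hs
    have pt := h.pos t ht
    have hφ := h.mono s t hs hst
    obtain ⟨T₀, hT₀, H₀⟩ := h.nat s t hs hst
    obtain ⟨T, hT⟩ : ∃ T, T = max T₀ (φ t) := ⟨_, rfl⟩
    have h1 : T₀ ≤ T := hT ▸ le_max_left _ _
    have h2 : φ t ≤ T := hT ▸ le_max_right _ _
    have hT0 := pt.trans_le h2
    have H : Hp (A s) ∅ (B T) ∅ (R s) (R t) := H₀.mono le_rfl le_rfl (hB _ _ hT₀ h1) le_rfl
    obtain ⟨T₁, hT₁, H₁⟩ := h'.nat (φ s) T ps (hφ.trans h2)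
    obtain ⟨T₂, hT₂, H₂⟩ := h'.nat (φ t) T pt h2
    have k1 : Hp (A s) ∅ (C T₁) ∅ (S (φ s) ∘ R s) (S T ∘ R s) :=
      H₁.comp_right (h.map s hs) (mapsTo_empty _ _)
    have k2 : Hp (A s) ∅ (C (ψ T)) ∅ (S T ∘ R s) (S T ∘ R t) :=
      H.comp_left (h'.map T hT0) (mapsTo_empty _ _)
    have k3 : Hp (A s) ∅ (C T₂) ∅ (S (φ t) ∘ R t) (S T ∘ R t) :=
      H₂.comp_right (h.map_sub hA hs hst) (mapsTo_empty _ _)
    obtain ⟨U, hU⟩ : ∃ U, U = max (ψ T) (max T₁ T₂) := ⟨_, rfl⟩
    have u1 : ψ T ≤ U := hU ▸ le_max_left _ _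
    have u2 : T₁ ≤ U := hU ▸ (le_max_left _ _).trans (le_max_right _ _)
    have u3 : T₂ ≤ U := hU ▸ (le_max_right _ _).trans (le_max_right _ _)
    have pT := h'.pos T hT0
    refine ⟨U, pT.trans_le u1, H550.hp_trans (k1.mono le_rfl le_rfl (hC _ _ hT₁ u2) le_rfl) ?_⟩
    exact H550.hp_trans (k2.mono le_rfl le_rfl (hC _ _ pT u1) le_rfl)
      (H550.hp_symm (k3.mono le_rfl le_rfl (hC _ _ hT₂ u3) le_rfl))

/-- a larger level function -/
theorem le (h : LMap A B φ R) (hB : Mono B) (hle : ∀ s, 0 < s → φ s ≤ ψ s)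
    (hm : ∀ s t, 0 < s → s ≤ t → ψ s ≤ ψ t) : LMap A B ψ R where
  pos s hs := (h.pos s hs).trans_le (hle s hs)
  mono := hm
  map s hs := h.map_le hB hs (hle s hs)
  nat := h.nat

/-- inclusions -/
theorem incl {A A' : ℝ → Set E} (hA : Mono A) (hA' : Mono A') (h : ∀ s, 0 < s → A s ⊆ A' s) :
    LMap A A' (fun s => s) fun _ => id :=
  const hA hA' (fun s hs => hs) (fun s t _ h => h) fun s hs =>
    ⟨fun x hx => h s hs hx, fun i => i.elim, fun ε hε => ⟨ε, hε, fun _ _ _ _ h => h⟩⟩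

/-- **The pull-back of a compatible family.** -/
noncomputable def fam (h : LMap A B φ R) (hA : Mono A) (hB : Mono B) (z : (PMa k B hB q).Fam) :
    (PMa k A hA q).Fam where
  z s hs := pull (on k) (h.map s hs) q (z.z (φ s) (h.pos s hs))
  comp s t hs hst := by
    have ht := hs.trans_le hst
    obtain ⟨T, hT, H⟩ := h.nat s t hs hst
    have e1 : res (hA s t hs hst) q (pull (on k) (h.map t ht) q (z.z (φ t) (h.pos t ht))) =
        pull (on k) (h.map_sub hA hs hst) q (z.z (φ t) (h.pos t ht)) := res_pull _ _ _ _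
    exact e1.trans (pull_fam_hp z (h.pos s hs) (h.pos t ht) hT (h.map s hs)
      (h.map_sub hA hs hst) H).symm

theorem fam_z (h : LMap A B φ R) (z : (PMa k B hB q).Fam) {s : ℝ} (hs : 0 < s) :
    (h.fam hA hB z).z s hs = pull (on k) (h.map s hs) q (z.z (φ s) (h.pos s hs)) := rfl

/-- The value from any level. -/
theorem fam_z' (h : LMap A B φ R) (z : (PMa k B hB q).Fam) {s t : ℝ} (hs : 0 < s) (ht : 0 < t)
    (h' : IsMap (tr E) (tr E') (A s) (B t) (R s)) :
    (h.fam hA hB z).z s hs = pull (on k) h' q (z.z t ht) := pull_fam z _ _ _ _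

/-- **Independence of the maps.** -/
theorem fam_congr (h : LMap A B φ R) (h' : LMap A B ψ R') (H : LEq A B R R')
    (z : (PMa k B hB q).Fam) : h.fam hA hB z = h'.fam hA hB z := by
  refine PM.Fam.ext' fun s hs => ?_
  obtain ⟨T, hT, H⟩ := H s hs
  exact pull_fam_hp z (h.pos s hs) (h'.pos s hs) hT (h.map s hs) (h'.map s hs) H

/-- The value of the pull-back, from a homotopic map. -/
theorem fam_z_hp (h : LMap A B φ R) (z : (PMa k B hB q).Fam) {s t T : ℝ} (hs : 0 < s)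
    (ht : 0 < t) (hT : 0 < T) {f : E → E'} (h' : IsMap (tr E) (tr E') (A s) (B t) f)
    (H : Hp (A s) ∅ (B T) ∅ (R s) f) :
    (h.fam hA hB z).z s hs = pull (on k) h' q (z.z t ht) :=
  pull_fam_hp z (h.pos s hs) ht hT (h.map s hs) h' H

/-- Functoriality. -/
theorem fam_comp {S : ℝ → E' → E''} (h : LMap A B φ R) (h' : LMap B C ψ S)
    (z : (PMa k C hC q).Fam) :
    (h.comp hA hB hC h').fam hA hC z = h.fam hA hB (h'.fam hB hC z) :=
  PM.Fam.ext' fun s hs =>
    (pull_comp (h.map s hs) (h'.map _ (h.pos s hs)) ((h.comp hA hB hC h').map s hs) _).symm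

/-- A composition, up to homotopy. -/
theorem fam_comp' {χ : ℝ → ℝ} {S : ℝ → E' → E''} {U : ℝ → E → E''} (h : LMap A B φ R)
    (h' : LMap B C ψ S) (h'' : LMap A C χ U) (H : LEq A C U fun s => S (φ s) ∘ R s)
    (z : (PMa k C hC q).Fam) :
    h''.fam hA hC z = h.fam hA hB (h'.fam hB hC z) := by
  rw [← fam_comp]
  exact h''.fam_congr _ H z

/-- The identity. -/
theorem fam_id (h : LMap A A φ fun _ => id) (z : (PMa k A hA q).Fam) : h.fam hA hA z = z := by
  refine PM.Fam.ext' fun s hs => ?_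
  have hi : IsMap (tr E) (tr E) (A s) (A s) id :=
    ⟨fun x hx => hx, fun i => i.elim, fun ε hε => ⟨ε, hε, fun _ _ _ _ h => h⟩⟩
  rw [h.fam_z' z hs hs hi]
  obtain ⟨c, hc, e⟩ := H.exists_mk (z.z s hs)
  rw [← e]
  rfl

/-! ### Linearity, operators -/

theorem fam_smul (h : LMap A B φ R) (a : k) (z : (PMa k B hB q).Fam) :
    h.fam hA hB (PM.Fam.smul a z) = PM.Fam.smul a (h.fam hA hB z) :=
  PM.Fam.ext' fun s hs => map_smul (pull (on k) (h.map s hs) q) a _

theorem fam_smul' (h : LMap A B φ R) (a : k) {z z' : (PMa k B hB q).Fam}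
    (H : ∀ t ht, z'.z t ht = a • z.z t ht) (s : ℝ) (hs : 0 < s) :
    (h.fam hA hB z').z s hs = a • (h.fam hA hB z).z s hs :=
  (congrArg (pull (on k) (h.map s hs) q) (H _ _)).trans (map_smul (pull (on k) (h.map s hs) q) a _)

theorem fam_add (h : LMap A B φ R) {z z' z'' : (PMa k B hB q).Fam}
    (H : ∀ t ht, z''.z t ht = z.z t ht + z'.z t ht) (s : ℝ) (hs : 0 < s) :
    (h.fam hA hB z'').z s hs = (h.fam hA hB z).z s hs + (h.fam hA hB z').z s hs :=
  (congrArg (pull (on k) (h.map s hs) q) (H _ _)).trans (map_add (pull (on k) (h.map s hs) q) _ _)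

theorem fam_zero (h : LMap A B φ R) {z : (PMa k B hB q).Fam} {s : ℝ} (hs : 0 < s)
    (H : z.z (φ s) (h.pos s hs) = 0) : (h.fam hA hB z).z s hs = 0 :=
  (congrArg (pull (on k) (h.map s hs) q) H).trans (map_zero (pull (on k) (h.map s hs) q))

/-- The operator on the families, homogeneous. -/
noncomputable def fop {A : ℝ → Set E} {hA : Mono A} {φ : ℝ → ℝ} {R : ℝ → E → E}
    (h : LMap A A φ R) : FOp (PMa k A hA q) where
  f := h.fam hA hA
  smul a o o' H t ht := h.fam_smul' a H t ht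

/-- A natural operator (for instance the reversal) is a map of the levels. -/
theorem ofOp (hA : Mono A) (O : SpOp A fun _ => ∅) : LMap A A (fun s => s) O.r where
  pos s hs := hs
  mono s t _ h := h
  map := O.map
  nat s t hs h := ⟨t, hs.trans_le h, O.nat s t hs h⟩

theorem ofOp_fam (O : SpOp A fun _ => ∅) (z : (PMa k A hA q).Fam) :
    (ofOp hA O).fam hA hA z = (O.opa k hA q).fam z := rfl

/-- **The pull-back commutes with the operators.** -/
theorem fam_op (h : LMap A B φ R) (OA : SpOp A fun _ => ∅) (OB : SpOp B fun _ => ∅)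
    (H : LEq A B (fun s => OB.r (φ s) ∘ R s) fun s => R s ∘ OA.r s) (z : (PMa k B hB q).Fam) :
    h.fam hA hB ((OB.opa k hB q).fam z) = (OA.opa k hA q).fam (h.fam hA hB z) := by
  rw [← ofOp_fam, ← ofOp_fam, ← fam_comp, ← fam_comp]
  exact fam_congr _ _ H z

end LMap

namespace LEq

variable {A : ℝ → Set E} {B : ℝ → Set E'} {R R' R'' : ℝ → E → E'}

theorem symm (H : LEq A B R R') : LEq A B R' R := fun s hs => by
  obtain ⟨T, hT, h⟩ := H s hs
  exact ⟨T, hT, H550.hp_symm h⟩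

theorem trans (hB : Mono B) (H : LEq A B R R') (H' : LEq A B R' R'') : LEq A B R R'' :=
  fun s hs => by
  obtain ⟨T, hT, h⟩ := H s hs
  obtain ⟨T', hT', h'⟩ := H' s hs
  exact ⟨max T T', lt_max_of_lt_left hT, H550.hp_trans
    (h.mono le_rfl le_rfl (hB _ _ hT (le_max_left _ _)) le_rfl)
    (h'.mono le_rfl le_rfl (hB _ _ hT' (le_max_right _ _)) le_rfl)⟩

/-- equal maps -/
theorem of_eq {φ : ℝ → ℝ} (h : LMap A B φ R) (he : ∀ s, 0 < s → EqOn (R s) (R' s) (A s)) :
    LEq A B R R' := fun s hs =>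
  ⟨φ s, h.pos s hs, H550.hp_of_eqOn (h.map s hs) (mapsTo_empty _ _) (he s hs)⟩

end LEq

end Vale.Agent.P216.D539
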