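import Vale.Agent.P216.D539.Apx
import Vale.Agent.P216.D539.LMap
import Vale.Agent.P216.D337.TrMap

/-!
# P216-D, [D-MAP]: maps of the path spaces which approximate `w ↦ f ∘ w`

`FMap f φ lam η R`: `R` maps the paths of time `t` from `a` to `b` to paths of time `φ t` from
`f a` to `f b`, `R w (lam * u)` is `η`-close to `f (w u)`, and `R` is continuous.
Instances: `Mo.fmap` (any continuous `f`), `LipC.fmap` (strict, `f` Lipschitz), `FMap.id`,
`FMap.comp`.
-/

set_option linter.all false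

open Set Filter Topology BoundedContinuousFunction

namespace Vale.Agent.P216.D539

open Vale.Agent.P216.PS Vale.Agent.P216.MV337 Vale.Agent.P216.C337 Vale.Agent.P216.D337
open Vale.Agent.P216.AS (IsMap IsHtpy)
open Vale.Agent.P216.H901 (Hp Mono tr on PMa)
open Vale.Agent.P216.H456 (PF PF_mono PF_subset_PP mem_PF_iff isCompact_PF P_subset_PF)

/-- `R` approximates `w ↦ f ∘ w`. -/
structure FMap {M N : Type} [MetricSpace M] [MetricSpace N] (f : M → N) (φ : ℝ → ℝ) (lam η : ℝ)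
    (R : (ℝ →ᵇ M) → (ℝ →ᵇ N)) : Prop where
  fc : Continuous f
  lam0 : 0 < lam
  η0 : 0 ≤ η
  mono : ∀ s t, 0 ≤ s → s ≤ t → φ s ≤ φ t
  le : ∀ t, 0 ≤ t → lam * t ≤ φ t
  mapP : ∀ a b t w, 0 ≤ t → w ∈ P a b t → R w ∈ P (f a) (f b) (φ t)
  cont : ∀ t, 0 ≤ t → ContinuousOn R (PP M t)
  close : ∀ t w, 0 ≤ t → w ∈ PP M t → ∀ u, dist (R w (lam * u)) (f (w u)) ≤ η

namespace FMap

variable {M N L : Type} [MetricSpace M] [MetricSpace N] [MetricSpace L] {f : M → N} {g : N → L}
  {φ ψ : ℝ → ℝ} {lam lam' η η' ω : ℝ} {R : (ℝ →ᵇ M) → (ℝ →ᵇ N)} {S : (ℝ →ᵇ N) → (ℝ →ᵇ L)}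
  {s t : ℝ} {w : ℝ →ᵇ M} {a b : M}

theorem pos (h : FMap f φ lam η R) (ht : 0 < t) : 0 < φ t :=
  (mul_pos h.lam0 ht).trans_le (h.le t ht.le)

theorem nonneg (h : FMap f φ lam η R) (ht : 0 ≤ t) : 0 ≤ φ t :=
  (mul_nonneg h.lam0.le ht).trans (h.le t ht)

theorem mapPP (h : FMap f φ lam η R) (ht : 0 ≤ t) (hw : w ∈ PP M t) :
    R w ∈ P (f (w 0)) (f (w t)) (φ t) := h.mapP _ _ t w ht (mem_P_of_PP hw)

theorem apply_zero (h : FMap f φ lam η R) (ht : 0 ≤ t) (hw : w ∈ PP M t) : R w 0 = f (w 0) :=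
  eq_left (h.mapPP ht hw) le_rfl

theorem apply_end (h : FMap f φ lam η R) (ht : 0 ≤ t) (hw : w ∈ PP M t) {u : ℝ} (hu : φ t ≤ u) :
    R w u = f (w t) := eq_right (h.mapPP ht hw) hu

/-- The identity. -/
theorem id : FMap (M := M) id id 1 0 id where
  fc := continuous_id
  lam0 := one_pos
  η0 := le_rfl
  mono s t _ h := h
  le t _ := by
    rw [one_mul]
    rfl
  mapP a b t w _ hw := hw
  cont t _ := continuousOn_id
  close t w _ _ u := by
    rw [one_mul]
    exact (dist_self _).le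

/-- **Composition.** -/
theorem comp (h : FMap f φ lam η R) (h' : FMap g ψ lam' η' S) (hω0 : 0 ≤ ω)
    (hω : ∀ x y, dist x y ≤ η → dist (g x) (g y) ≤ ω) :
    FMap (g ∘ f) (ψ ∘ φ) (lam' * lam) (η' + ω) (S ∘ R) where
  fc := h'.fc.comp h.fc
  lam0 := mul_pos h'.lam0 h.lam0
  η0 := add_nonneg h'.η0 hω0
  mono s t hs hst := h'.mono _ _ (h.nonneg hs) (h.mono s t hs hst)
  le t ht := by
    refine le_trans ?_ (h'.le (φ t) (h.nonneg ht))
    rw [mul_assoc]
    exact mul_le_mul_of_nonneg_left (h.le t ht) h'.lam0.le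
  mapP a b t w ht hw := h'.mapP _ _ _ _ (h.nonneg ht) (h.mapP _ _ _ _ ht hw)
  cont t ht := (h'.cont (φ t) (h.nonneg ht)).comp (h.cont t ht) fun w hw =>
    P_subset_PP (h.mapPP ht hw)
  close t w ht hw u := by
    have e1 := h'.close (φ t) (R w) (h.nonneg ht) (P_subset_PP (h.mapPP ht hw)) (lam * u)
    have e2 := hω _ _ (h.close t w ht hw u)
    rw [mul_assoc]
    exact (dist_triangle _ _ _).trans (add_le_add e1 e2)

/-- Composition after a strict map. -/
theorem comp₀ (h : FMap f φ lam 0 R) (h' : FMap g ψ lam' η' S) :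
    FMap (g ∘ f) (ψ ∘ φ) (lam' * lam) η' (S ∘ R) := by
  have := h.comp h' (ω := 0) le_rfl fun x y hxy => by
    rw [dist_le_zero.1 hxy, dist_self]
  rwa [add_zero] at this

/-- Composition before a Lipschitz map. -/
theorem comp_lip {K : ℝ} (h : FMap f φ lam η R) (h' : FMap g ψ lam' η' S) (hK : 0 < K)
    (hg : LipC g K) : FMap (g ∘ f) (ψ ∘ φ) (lam' * lam) (η' + K * η) (S ∘ R) :=
  h.comp h' (mul_nonneg hK.le h.η0) fun x y hxy =>
    (hg x y).trans (mul_le_mul_of_nonneg_left hxy hK.le)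

/-! ### The maps of the levels -/

section Compact

variable [CompactSpace M]

theorem map_of (h : FMap f φ lam η R) (ht : 0 ≤ t) {A : Set (ℝ →ᵇ M)} {B : Set (ℝ →ᵇ N)}
    (hA : IsCompact A) (hAt : A ⊆ PP M t) (hB : ∀ w ∈ A, P (f (w 0)) (f (w t)) (φ t) ⊆ B) :
    IsMap (tr _) (tr _) A B R :=
  map_of_cont hA ((h.cont t ht).mono hAt) fun w hw => hB w hw (h.mapPP ht (hAt hw))

theorem FL_sub_PP : FL M t ⊆ PP M t := fun w hw => P_subset_PP (mem_FL_iff.1 hw)

theorem map_FL (h : FMap f φ lam η R) (ht : 0 ≤ t) :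
    IsMap (tr _) (tr _) (FL M t) (FL N (φ t)) R :=
  h.map_of ht (isCompact_FL ht) FL_sub_PP fun w hw => by
    have e : w t = w 0 := eq_right (mem_FL_iff.1 hw) le_rfl
    rw [e]
    exact P_subset_FL

theorem map_P (h : FMap f φ lam η R) (ht : 0 ≤ t) (a b : M) :
    IsMap (tr _) (tr _) (P a b t) (P (f a) (f b) (φ t)) R :=
  h.map_of ht (isCompact_P a b t) P_subset_PP fun w hw => by
    rw [eq_left hw le_rfl, eq_right hw le_rfl]

theorem map_PF (h : FMap f φ lam η R) (ht : 0 ≤ t) (b : M) :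
    IsMap (tr _) (tr _) (PF b t) (PF (f b) (φ t)) R :=
  h.map_of ht (isCompact_PF b ht) PF_subset_PP fun w hw => by
    have e : w t = b := hw.2.2 t le_rfl
    rw [e]
    exact P_subset_PF

/-- `w ↦ (w 0, R w)` -/
noncomputable def phi (R : (ℝ →ᵇ M) → (ℝ →ᵇ N)) (w : ℝ →ᵇ M) : M × (ℝ →ᵇ N) := (w 0, R w)

theorem map_phi (h : FMap f φ lam η R) (ht : 0 ≤ t) :
    IsMap (tr _) (tr _) (FL M t) (PY f f univ (φ t)) (phi R) := by
  refine map_of_cont (isCompact_FL ht) ?_ fun w hw => ⟨mem_univ _, ?_⟩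
  · exact (continuousOn_eval continuousOn_id continuousOn_const).prodMk
      ((h.cont t ht).mono FL_sub_PP)
  · exact h.mapP _ _ t w ht (mem_FL_iff.1 hw)

theorem mono_P' (a b : N) : Mono fun t => P a b t := fun _ _ _ h => P_mono h

theorem mono_FL' : Mono fun t => FL N t := fun _ _ _ h => FL_mono h

theorem mono_PF' (b : N) : Mono fun t => PF b t := fun _ _ _ h => PF_mono h

theorem mono_PY {Y : Type} [MetricSpace Y] (F G : Y → N) (L : Set Y) :
    Mono fun t => PY F G L t := fun _ _ _ h => PY_mono le_rfl h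

theorem lFL (h : FMap f φ lam η R) : LMap (fun t => FL M t) (fun t => FL N t) φ fun _ => R :=
  LMap.const mono_FL' mono_FL' (fun _ => h.pos) (fun s t hs => h.mono s t hs.le)
    fun _ hs => h.map_FL hs.le

theorem lP (h : FMap f φ lam η R) (a b : M) :
    LMap (fun t => P a b t) (fun t => P (f a) (f b) t) φ fun _ => R :=
  LMap.const (mono_P' a b) (mono_P' _ _) (fun _ => h.pos) (fun s t hs => h.mono s t hs.le)
    fun _ hs => h.map_P hs.le a b

theorem lPF (h : FMap f φ lam η R) (b : M) :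
    LMap (fun t => PF b t) (fun t => PF (f b) t) φ fun _ => R :=
  LMap.const (mono_PF' b) (mono_PF' _) (fun _ => h.pos) (fun s t hs => h.mono s t hs.le)
    fun _ hs => h.map_PF hs.le b

theorem lphi (h : FMap f φ lam η R) :
    LMap (fun t => FL M t) (fun t => PY f f univ t) φ fun _ => phi R :=
  LMap.const mono_FL' (mono_PY _ _ _) (fun _ => h.pos) (fun s t hs => h.mono s t hs.le)
    fun _ hs => h.map_phi hs.le

end Compact

end FMap

/-- `snd : PY G G L t → FL M t` -/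
theorem lsnd {Y M : Type} [MetricSpace Y] [MetricSpace M] (G : Y → M) (L : Set Y) :
    LMap (fun t => PY G G L t) (fun t => FL M t) (fun t => t) fun _ => Prod.snd :=
  LMap.const (FMap.mono_PY _ _ _) FMap.mono_FL' (fun _ h => h) (fun _ _ _ h => h) fun t ht =>
    ⟨fun q hq => P_subset_FL hq.2, fun i => i.elim, fun ε hε => ⟨ε, hε, fun x _ y _ h =>
      (le_max_right _ _).trans_lt h⟩⟩

/-- The inclusion of the based loops in the free loops. -/
theorem linc {M : Type} [MetricSpace M] (x : M) :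
    LMap (fun t => P x x t) (fun t => FL M t) (fun t => t) fun _ => id :=
  LMap.incl (FMap.mono_P' x x) FMap.mono_FL' fun _ _ => P_subset_FL

/-- The inclusion of the fibre over `y`. -/
theorem linY {Y M : Type} [MetricSpace Y] [MetricSpace M] (G : Y → M) {L : Set Y} {y : Y}
    (hy : y ∈ L) :
    LMap (fun t => P (G y) (G y) t) (fun t => PY G G L t) (fun t => t) fun _ w => (y, w) :=
  LMap.const (FMap.mono_P' _ _) (FMap.mono_PY _ _ _) (fun _ h => h) (fun _ _ _ h => h)
    fun t ht => ⟨fun w hw => ⟨hy, hw⟩, fun i => i.elim, fun ε hε => ⟨ε, hε, fun x _ y' _ h => by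
      rw [Prod.dist_eq, dist_self]
      exact max_lt hε h⟩⟩

/-! ### Examples -/

section examples

variable {M N : Type} [MetricSpace M] [CompactSpace M] [MetricSpace N] [CompactSpace N]
  {f : M → N} {ρ η δ K : ℝ}

/-- **The approximation of a continuous map.** -/
theorem Mo.fmap (h : Mo f ρ η δ) : FMap f (lvl η δ) (η / δ) (2 * η) (apx f δ η) where
  fc := h.cont
  lam0 := div_pos h.η0 h.δ0
  η0 := by linarith [h.η0]
  mono s t _ hst := h.lvl_mono hst
  le t _ := by
    unfold lvl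
    linarith [h.η0]
  mapP a b t w _ hw := h.apx_P hw
  cont t ht := h.apx_cont ht continuousOn_id fun _ hw => hw
  close t w _ hw u := h.apx_close hw.1 u

/-- **Existence.** -/
theorem exists_fmap (hf : Continuous f) (hU : LS.UniqSeg N ρ) (hρ : 0 < ρ) {ε : ℝ} (hε : 0 < ε) :
    ∃ φ lam η R, FMap f φ lam η R ∧ 0 < η ∧ η ≤ ε := by
  have h1 : 0 < min (ε / 2) (ρ / 2) := lt_min (by linarith) (by linarith)
  obtain ⟨δ, h⟩ := exists_mo hf hU h1 ((min_le_right _ _).trans_lt (by linarith))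
  exact ⟨_, _, _, _, h.fmap, by linarith, by linarith [min_le_left (ε / 2) (ρ / 2)]⟩

/-- **The strict map of a Lipschitz map.** -/
theorem fmap_gm (hf : LipC f K) (hK : 0 < K) :
    FMap f (fun t => K * t) K 0 fun w : ℝ →ᵇ M => gm f K w where
  fc := hf.continuous hK
  lam0 := hK
  η0 := le_rfl
  mono s t _ hst := mul_le_mul_of_nonneg_left hst hK.le
  le t _ := le_rfl
  mapP a b t w _ hw := gm_mem_P hf hK hw
  cont t ht := by
    refine Metric.continuousOn_iff.2 fun w hw ε hε => ⟨ε / K, by positivity, fun v hv h => ?_⟩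
    refine (dist_gm_le hf hK hv.1 hw.1).trans_lt ?_
    rwa [lt_div_iff₀' hK] at h
  close t w _ hw u := by
    rw [gm_apply hf hK hw.1, mul_div_cancel_left₀ _ hK.ne', dist_self]

end examples

end Vale.Agent.P216.D539
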