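import Vale.Agent.P216.D539.Close
import Vale.Agent.P216.D337.TrivPY

/-!
# P216-D, [D-MAP]: close maps `f`, `f'` induce homotopic maps of the path spaces; the reversal

* `FMap.leq_FL`: on the free loops; `FMap.leq_P`, `FMap.leq_P'`: on the paths from `a` to `b`;
  `FMap.leq_phi`: into the pulled back fibration.
* `FMap.leq_rv_FL`, `FMap.leq_rv_P`, `FMap.leq_rv_phi`: the reversal.
-/

set_option linter.all false

open Set Filter Topology BoundedContinuousFunction

namespace Vale.Agent.P216.D539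

open Vale.Agent.P216.PS Vale.Agent.P216.MV337 Vale.Agent.P216.C337 Vale.Agent.P216.D337
open Vale.Agent.P216.AS (IsMap IsHtpy)
open Vale.Agent.P216.H901 (Hp Mono tr on PMa Ret Cls swp hp_sweep swp_cont swp_mem swp_zero swp_one)
open Vale.Agent.P216.H754B (rv_apply rv_mem_P rv_mem_FL rv_zero lip_rv)

/-- The sweep into a space of pairs. -/
theorem hp_sweepY {Y N E : Type} [MetricSpace Y] [MetricSpace N] [CompactSpace N]
    [PseudoMetricSpace E] {ρ r s s' : ℝ} {σ τ : ℝ → ℝ} {A : Set E} {B : Set (Y × (ℝ →ᵇ N))}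
    (hU : LS.UniqSeg N ρ) (hr : 0 < r) (hrρ : r < ρ) (hA : IsCompact A) (h : Ret s s' σ τ)
    {X : E → Y} {F F' : E → ℝ →ᵇ N} {a b : E → N} (hX : ContinuousOn X A)
    (hF : ContinuousOn F A) (hF' : ContinuousOn F' A) (hm : ∀ x ∈ A, F x ∈ P (a x) (b x) s)
    (hm' : ∀ x ∈ A, F' x ∈ P (a x) (b x) s') (hc : ∀ x ∈ A, Cls r σ τ (F x) (F' x))
    (hB : ∀ x ∈ A, ∀ v ∈ P (a x) (b x) (s + s' + r), (X x, v) ∈ B) :
    Hp A ∅ B ∅ (fun x => (X x, F x)) fun x => (X x, F' x) := by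
  refine MV337.hp_of_cont hA (F := fun p => (X p.2, swp r σ τ (F p.2) (F' p.2) p.1)) ?_ ?_ ?_ ?_ ?_
  · exact (hX.comp continuousOn_snd fun p hp => hp.2).prodMk
      (swp_cont (a := fun p : ℝ × E => a p.2) (b := fun p : ℝ × E => b p.2) hU hr hrρ h
      (hF.comp continuousOn_snd fun p hp => hp.2) (hF'.comp continuousOn_snd fun p hp => hp.2)
      continuousOn_fst (fun p hp => hp.1) (fun p hp => hm _ hp.2) (fun p hp => hm' _ hp.2)
      fun p hp => hc _ hp.2)
  · exact fun l hl x hx => hB x hx _ (swp_mem hU hr hrρ h (hm x hx) (hm' x hx) (hc x hx) hl)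
  · exact fun l hl x hx => hx.elim
  · exact fun x hx => Prod.ext rfl swp_zero
  · exact fun x hx => Prod.ext rfl (swp_one hU hr hrρ h (hm x hx) (hm' x hx))

/-- Linear time changes. -/
theorem ret_lin {S S' : ℝ} (hS : 0 ≤ S) (hS' : 0 ≤ S') :
    Ret S S' (fun l => S * l) fun l => S' * l where
  σ_cont := by fun_prop
  τ_cont := by fun_prop
  σ0 := mul_zero _
  τ0 := mul_zero _
  σ1 := mul_one _
  τ1 := mul_one _
  σ_mem l hl := ⟨mul_nonneg hS hl.1, mul_le_of_le_one_right hS hl.2⟩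
  τ_mem l hl := ⟨mul_nonneg hS' hl.1, mul_le_of_le_one_right hS' hl.2⟩

namespace FMap

section

variable {M N : Type} [MetricSpace M] [MetricSpace N] {f f' : M → N} {φ φ' : ℝ → ℝ}
  {lam lam' η η' d r ρ : ℝ} {R R' : (ℝ →ᵇ M) → (ℝ →ᵇ N)} {s t : ℝ} {w : ℝ →ᵇ M} {a b : M}

/-- A common time for both maps, in the source. -/
noncomputable def ct (φ φ' : ℝ → ℝ) (lam lam' t : ℝ) : ℝ := max (φ t / lam) (φ' t / lam')

theorem le_ct (h : FMap f φ lam η R) : φ t ≤ lam * ct φ φ' lam lam' t := by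
  have := le_max_left (φ t / lam) (φ' t / lam')
  have h1 := mul_le_mul_of_nonneg_left this h.lam0.le
  rwa [mul_div_cancel₀ _ h.lam0.ne'] at h1

theorem le_ct' (h' : FMap f' φ' lam' η' R') : φ' t ≤ lam' * ct φ φ' lam lam' t := by
  have := le_max_right (φ t / lam) (φ' t / lam')
  have h1 := mul_le_mul_of_nonneg_left this h'.lam0.le
  rwa [mul_div_cancel₀ _ h'.lam0.ne'] at h1

/-- The two images of a path are close. -/
theorem cls (h : FMap f φ lam η R) (h' : FMap f' φ' lam' η' R')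
    (hd : ∀ x, dist (f' x) (f x) ≤ d) (hr : η + η' + d ≤ r) (ht : 0 ≤ t) (hw : w ∈ PP M t)
    (T : ℝ) : Cls r (fun l => lam * T * l) (fun l => lam' * T * l) (R w) (R' w) := fun l _ => by
  have e1 := h.close t w ht hw (T * l)
  have e2 := h'.close t w ht hw (T * l)
  have e3 := hd (w (T * l))
  rw [← mul_assoc] at e1 e2
  rw [dist_comm] at e1
  have e4 := dist_triangle4 (R' w (lam' * T * l)) (f' (w (T * l))) (f (w (T * l)))
    (R w (lam * T * l))
  linarith

end

section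

variable {M N : Type} [MetricSpace M] [CompactSpace M] [MetricSpace N] [CompactSpace N]
  {f f' : M → N} {φ φ' : ℝ → ℝ} {lam lam' η η' d r ρ : ℝ} {R R' : (ℝ →ᵇ M) → (ℝ →ᵇ N)}
  {s t : ℝ} {w : ℝ →ᵇ M} {a b : M}

omit [CompactSpace M] in
/-- **Close maps, general form.** -/
theorem hp_gen (h : FMap f φ lam η R) (h' : FMap f' φ' lam' η' R')
    (hd : ∀ x, dist (f' x) (f x) ≤ d) (hr : η + η' + d ≤ r) (hr0 : 0 < r) (hrρ : r < ρ)
    (hU : LS.UniqSeg N ρ) (ht : 0 < t) {A : Set (ℝ →ᵇ M)} {B : Set (ℝ →ᵇ N)} (hA : IsCompact A)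
    (hAt : A ⊆ PP M t) {S S' : ℝ} (hS : S = lam * ct φ φ' lam lam' t)
    (hS' : S' = lam' * ct φ φ' lam lam' t)
    (hB : ∀ w ∈ A, P (f (w 0)) (f (w t)) (S + (S' + (r + r)) + r) ⊆ B) :
    Hp A ∅ B ∅ R fun w => cv r S' (f (w 0)) (f (w t)) (f' (w 0)) (f' (w t)) (R' w) := by
  have h1 : φ t ≤ S := hS ▸ h.le_ct
  have h2 : φ' t ≤ S' := hS' ▸ h'.le_ct'
  refine hp_cv hU hr0 hrρ hA (ret_lin ((h.nonneg ht.le).trans h1) ((h'.nonneg ht.le).trans h2))
    (a := fun w => f (w 0)) (b := fun w => f (w t)) (a' := fun w => f' (w 0))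
    (b' := fun w => f' (w t)) ((h.cont t ht.le).mono hAt) ((h'.cont t ht.le).mono hAt)
    (fun w hw => P_mono h1 (h.mapPP ht.le (hAt hw))) (fun w hw =>
      P_mono h2 (h'.mapPP ht.le (hAt hw))) (fun w hw => ?_) hB
  rw [hS, hS']
  exact h.cls h' hd hr ht.le (hAt hw) _

omit [CompactSpace M] in
theorem ends_FL (hw : w ∈ FL M t) : w t = w 0 := eq_right (mem_FL_iff.1 hw) le_rfl

/-- **Close maps, free loops.** -/
theorem leq_FL (h : FMap f φ lam η R) (h' : FMap f' φ' lam' η' R')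
    (hd : ∀ x, dist (f' x) (f x) ≤ d) (hr : η + η' + d ≤ r) (hr0 : 0 < r) (hrρ : r < ρ)
    (hU : LS.UniqSeg N ρ) :
    LEq (fun t => FL M t) (fun t => FL N t) (fun _ => R) fun _ => R' := by
  intro t ht
  obtain ⟨S, hS⟩ : ∃ S, S = lam * ct φ φ' lam lam' t := ⟨_, rfl⟩
  obtain ⟨S', hS'⟩ : ∃ S', S' = lam' * ct φ φ' lam lam' t := ⟨_, rfl⟩
  have h1 : φ t ≤ S := hS ▸ h.le_ct
  have h2 : φ' t ≤ S' := hS' ▸ h'.le_ct'
  have p1 := h.pos ht
  have p2 := h'.pos ht
  refine ⟨S + (S' + (r + r)) + r, by linarith, ?_⟩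
  have k1 := h.hp_gen h' hd hr hr0 hrρ hU ht (isCompact_FL ht.le) FL_sub_PP hS hS'
    (B := FL N (S + (S' + (r + r)) + r)) fun w hw => by
      rw [ends_FL hw]
      exact P_subset_FL
  refine H550.hp_trans k1 (H550.hp_symm ?_)
  have k2 : Hp (FL M t) ∅ (FL N (S + (S' + (r + r)) + r)) ∅ R' fun w =>
      cv r S' (f (w 0)) (f (w 0)) (f' (w 0)) (f' (w 0)) (R' w) := by
    refine hp_shrink hU hr0 hrρ (p2.le.trans h2) (isCompact_FL ht.le)
      (a := fun w => f (w 0)) (a' := fun w => f' (w 0)) ((h'.cont t ht.le).mono FL_sub_PP)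
      (h.fc.comp_continuousOn (continuousOn_eval continuousOn_id continuousOn_const))
      (fun w hw => P_mono h2 (h'.mapP _ _ t w ht.le (mem_FL_iff.1 hw))) (fun w _ => ?_)
      fun w _ z v hv => P_subset_FL (P_mono (by linarith) hv)
    exact (hd _).trans (by linarith [h.η0, h'.η0])
  exact H550.hp_congr k2 (fun _ _ => rfl) fun w hw => by
    simp only []
    rw [ends_FL hw]

/-- **Close maps with the same values at the end points.** -/
theorem leq_P (h : FMap f φ lam η R) (h' : FMap f' φ' lam' η' R')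
    (hd : ∀ x, dist (f' x) (f x) ≤ d) (hr : η + η' + d ≤ r) (hr0 : 0 < r) (hrρ : r < ρ)
    (hU : LS.UniqSeg N ρ) (a b : M) (ha : f' a = f a) (hb : f' b = f b) :
    LEq (fun t => P a b t) (fun t => P (f a) (f b) t) (fun _ => R) fun _ => R' := by
  intro t ht
  obtain ⟨S, hS⟩ : ∃ S, S = lam * ct φ φ' lam lam' t := ⟨_, rfl⟩
  obtain ⟨S', hS'⟩ : ∃ S', S' = lam' * ct φ φ' lam lam' t := ⟨_, rfl⟩
  have h1 : φ t ≤ S := hS ▸ h.le_ct
  have h2 : φ' t ≤ S' := hS' ▸ h'.le_ct'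
  have p1 := h.pos ht
  have p2 := h'.pos ht
  refine ⟨S + S' + r, by linarith, ?_⟩
  refine hp_sweep hU hr0 hrρ (isCompact_P a b t) (empty_subset _)
    (ret_lin (p1.le.trans h1) (p2.le.trans h2)) (a := fun _ => f a) (b := fun _ => f b)
    ((h.cont t ht.le).mono P_subset_PP) ((h'.cont t ht.le).mono P_subset_PP)
    (fun w hw => P_mono h1 (h.mapP _ _ t w ht.le hw)) (fun w hw => ?_) (fun w hw => ?_)
    (fun _ _ => le_rfl) fun _ hx => hx.elim
  · have := P_mono h2 (h'.mapP _ _ t w ht.le hw)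
    rwa [ha, hb] at this
  · rw [hS, hS']
    exact h.cls h' hd hr ht.le (P_subset_PP hw) _

/-- **Independence of the approximation, in the pulled back fibration.** -/
theorem leq_phi (h : FMap f φ lam η R) (h' : FMap f φ' lam' η' R') (hr : η + η' ≤ r)
    (hr0 : 0 < r) (hrρ : r < ρ) (hU : LS.UniqSeg N ρ) :
    LEq (fun t => FL M t) (fun t => PY f f univ t) (fun _ => phi R) fun _ => phi R' := by
  intro t ht
  obtain ⟨S, hS⟩ : ∃ S, S = lam * ct φ φ' lam lam' t := ⟨_, rfl⟩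
  obtain ⟨S', hS'⟩ : ∃ S', S' = lam' * ct φ φ' lam lam' t := ⟨_, rfl⟩
  have h1 : φ t ≤ S := hS ▸ h.le_ct
  have h2 : φ' t ≤ S' := hS' ▸ h'.le_ct'
  have p1 := h.pos ht
  have p2 := h'.pos ht
  refine ⟨S + S' + r, by linarith, ?_⟩
  refine hp_sweepY hU hr0 hrρ (isCompact_FL ht.le) (ret_lin (p1.le.trans h1) (p2.le.trans h2))
    (a := fun w => f (w 0)) (b := fun w => f (w 0))
    (continuousOn_eval continuousOn_id continuousOn_const)
    ((h.cont t ht.le).mono FL_sub_PP) ((h'.cont t ht.le).mono FL_sub_PP)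
    (fun w hw => P_mono h1 (h.mapP _ _ t w ht.le (mem_FL_iff.1 hw)))
    (fun w hw => P_mono h2 (h'.mapP _ _ t w ht.le (mem_FL_iff.1 hw))) (fun w hw => ?_)
    fun w hw v hv => ⟨mem_univ _, hv⟩
  rw [hS, hS']
  exact h.cls h' (d := 0) (fun x => (dist_self _).le) (by linarith) ht.le (FL_sub_PP hw) _

/-! ### The reversal -/

/-- The time changes for the reversal. -/
theorem ret_rv {φt c : ℝ} (hφ : 0 ≤ φt) (hc : 0 ≤ c) :
    Ret φt (c + φt) (fun l => max 0 ((c + φt) * l - c)) fun l => (c + φt) * l where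
  σ_cont := by fun_prop
  τ_cont := by fun_prop
  σ0 := by
    rw [mul_zero, zero_sub]
    exact max_eq_left (by linarith)
  τ0 := mul_zero _
  σ1 := by
    rw [mul_one, add_sub_cancel_left]
    exact max_eq_right hφ
  τ1 := mul_one _
  σ_mem l hl := ⟨le_max_left _ _, max_le hφ (by nlinarith [hl.2])⟩
  τ_mem l hl := ⟨mul_nonneg (by linarith) hl.1, mul_le_of_le_one_right (by linarith) hl.2⟩

omit [CompactSpace M] [CompactSpace N] in
theorem cls_rv (h : FMap f φ lam η R) (ht : 0 ≤ t) (hw : w ∈ PP M t) (hr : 2 * η ≤ r) :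
    Cls r (fun l => max 0 ((φ t - lam * t + φ t) * l - (φ t - lam * t)))
      (fun l => (φ t - lam * t + φ t) * l) (R (H754B.rv t w)) (H754B.rv (φ t) (R w)) := by
  intro l hl
  have hw' : H754B.rv t w ∈ PP M t := by
    have := rv_mem_P (mem_P_of_PP hw) (le_refl t)
    exact P_subset_PP this
  have hlam := h.lam0
  have h0 := h.η0
  rw [rv_apply]
  obtain ⟨u, hu⟩ : ∃ u, u = ((φ t - lam * t + φ t) * l - (φ t - lam * t)) / lam := ⟨_, rfl⟩
  have e0 : lam * u = (φ t - lam * t + φ t) * l - (φ t - lam * t) := by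
    rw [hu, mul_div_cancel₀ _ hlam.ne']
  have e1 : φ t - (φ t - lam * t + φ t) * l = lam * (t - u) := by
    rw [mul_sub, e0]
    ring
  have e2 := h.close t w ht hw (t - u)
  simp only []
  rw [e1, ← e0]
  rcases le_total 0 u with h1 | h1
  · rw [max_eq_right (mul_nonneg hlam.le h1)]
    have e3 := h.close t _ ht hw' u
    rw [rv_apply, dist_comm] at e3
    linarith [dist_triangle (R w (lam * (t - u))) (f (w (t - u))) (R (H754B.rv t w) (lam * u))]
  · rw [max_eq_left (mul_nonpos_of_nonneg_of_nonpos hlam.le h1), h.apply_zero ht hw', rv_apply,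
      sub_zero]
    have e3 : w (t - u) = w t := hw.2.2 _ (by linarith)
    rw [e3] at e2
    linarith

omit [CompactSpace M] in
theorem cont_rv (t : ℝ) : Continuous (H754B.rv (M := M) t) :=
  LipschitzWith.continuous (K := 1) (LipschitzWith.of_dist_le_mul fun x y => by
    rw [NNReal.coe_one, one_mul]
    exact H754B.dist_rv_le t x y)

omit [CompactSpace M] in
/-- **The reversal, general form.** -/
theorem hp_rv (h : FMap f φ lam η R) (hr : 2 * η ≤ r) (hr0 : 0 < r) (hrρ : r < ρ)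
    (hU : LS.UniqSeg N ρ) (ht : 0 < t) {A : Set (ℝ →ᵇ M)} {B : Set (ℝ →ᵇ N)} (hA : IsCompact A)
    (hAt : A ⊆ PP M t)
    (hB : ∀ w ∈ A, P (f (w t)) (f (w 0)) (φ t + (φ t - lam * t + φ t) + r) ⊆ B) :
    Hp A ∅ B ∅ (H754B.rv (φ t) ∘ R) (R ∘ H754B.rv t) := by
  have p1 := h.pos ht
  have p2 := h.le t ht.le
  refine H550.hp_symm ?_
  refine hp_sweep hU hr0 hrρ hA (empty_subset _) (ret_rv p1.le (by linarith))
    (a := fun w => f (w t)) (b := fun w => f (w 0))
    ((h.cont t ht.le).comp (cont_rv t).continuousOn fun w hw =>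
      P_subset_PP (rv_mem_P (mem_P_of_PP (hAt hw)) le_rfl))
    ((cont_rv (φ t)).comp_continuousOn ((h.cont t ht.le).mono hAt))
    (fun w hw => h.mapP _ _ t _ ht.le (rv_mem_P (mem_P_of_PP (hAt hw)) le_rfl))
    (fun w hw => P_mono (by linarith) (rv_mem_P (h.mapPP ht.le (hAt hw)) le_rfl))
    (fun w hw => h.cls_rv ht.le (hAt hw) hr) hB fun _ hx => hx.elim

/-- **The reversal, on the paths.** -/
theorem leq_rv_P (h : FMap f φ lam η R) (hr : 2 * η ≤ r) (hr0 : 0 < r) (hrρ : r < ρ)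
    (hU : LS.UniqSeg N ρ) (a b : M) :
    LEq (fun t => P a b t) (fun t => P (f b) (f a) t) (fun t => H754B.rv (φ t) ∘ R)
      fun t => R ∘ H754B.rv t := by
  intro t ht
  have p1 := h.pos ht
  have p2 := h.le t ht.le
  refine ⟨φ t + (φ t - lam * t + φ t) + r, by linarith, ?_⟩
  refine h.hp_rv hr hr0 hrρ hU ht (isCompact_P a b t) P_subset_PP fun w hw => ?_
  rw [eq_left hw le_rfl, eq_right hw le_rfl]

/-- **The reversal, on the free loops.** -/
theorem leq_rv_FL (h : FMap f φ lam η R) (hr : 2 * η ≤ r) (hr0 : 0 < r) (hrρ : r < ρ)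
    (hU : LS.UniqSeg N ρ) :
    LEq (fun t => FL M t) (fun t => FL N t) (fun t => H754B.rv (φ t) ∘ R)
      fun t => R ∘ H754B.rv t := by
  intro t ht
  have p1 := h.pos ht
  have p2 := h.le t ht.le
  refine ⟨φ t + (φ t - lam * t + φ t) + r, by linarith, ?_⟩
  refine h.hp_rv hr hr0 hrρ hU ht (isCompact_FL ht.le) FL_sub_PP fun w hw => ?_
  rw [ends_FL hw]
  exact P_subset_FL

/-- **The reversal, in the pulled back fibration.** -/
theorem leq_rv_phi (h : FMap f φ lam η R) (hr : 2 * η ≤ r) (hr0 : 0 < r) (hrρ : r < ρ)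
    (hU : LS.UniqSeg N ρ) :
    LEq (fun t => FL M t) (fun t => PY f f univ t) (fun t => rvY (φ t) ∘ phi R)
      fun t => phi R ∘ H754B.rv t := by
  intro t ht
  have p1 := h.pos ht
  have p2 := h.le t ht.le
  refine ⟨φ t + (φ t - lam * t + φ t) + r, by linarith, H550.hp_symm ?_⟩
  have key : Hp (FL M t) ∅ (PY f f univ (φ t + (φ t - lam * t + φ t) + r)) ∅
      (fun w => (w 0, R (H754B.rv t w))) fun w => (w 0, H754B.rv (φ t) (R w)) := by
    refine hp_sweepY hU hr0 hrρ (isCompact_FL ht.le) (ret_rv p1.le (by linarith))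
      (a := fun w => f (w 0)) (b := fun w => f (w 0))
      (continuousOn_eval continuousOn_id continuousOn_const)
      ((h.cont t ht.le).comp (cont_rv t).continuousOn fun w hw =>
        FL_sub_PP (rv_mem_FL hw le_rfl))
      ((cont_rv (φ t)).comp_continuousOn ((h.cont t ht.le).mono FL_sub_PP))
      (fun w hw => h.mapP _ _ t _ ht.le (rv_mem_P (mem_FL_iff.1 hw) le_rfl))
      (fun w hw => P_mono (by linarith) (rv_mem_P (h.mapP _ _ t w ht.le (mem_FL_iff.1 hw)) le_rfl))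
      (fun w hw => h.cls_rv ht.le (FL_sub_PP hw) hr) fun w hw v hv => ⟨mem_univ _, hv⟩
  refine H550.hp_congr key (fun w hw => ?_) fun w hw => rfl
  change (w 0, R (H754B.rv t w)) = (H754B.rv t w 0, R (H754B.rv t w))
  rw [rv_zero hw le_rfl]

end

end FMap

end Vale.Agent.P216.D539
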