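import Vale.Agent.P216.D539.Hty
import Vale.Agent.P216.C337.Sys
import Vale.Agent.P216.H754B.Fl

/-!
# P216-D, [D-MAP]: transport of the based loops

`Tra a a'`: an interleaving of the based loops at `a` and at `a'`, homotopic to the inclusion as
free loops, and commuting with the reversal. `Tra.refl`, `Tra.symm`, `Tra.trans`, `Tra.ofClose`.
-/

set_option linter.all false

open Set Filter Topology BoundedContinuousFunction

namespace Vale.Agent.P216.D539

open Vale.Agent.P216.PS Vale.Agent.P216.MV337 Vale.Agent.P216.C337 Vale.Agent.P216.D337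
open Vale.Agent.P216.AS (IsMap IsHtpy)
open Vale.Agent.P216.H901 (Hp Mono tr on PMa Ret Cls SpIntl PM)
open Vale.Agent.P216.H754B (rv_apply rv_mem_P rv_mem_FL rv_zero lip_rv XP GP mono_P mono_FL opP)

section sp

variable {E E' : Type} [PseudoMetricSpace E] [PseudoMetricSpace E'] {A A' : ℝ → Set E}
  {B B' : ℝ → Set E'} {c : ℝ}

theorem hp_drop {E E' : Type} [PseudoMetricSpace E] [PseudoMetricSpace E'] {A A' : Set E}
    {B B' : Set E'} {f g : E → E'} (h : Hp A A' B B' f g) : Hp A ∅ B ∅ f g := by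
  obtain ⟨D, hD, -, h0, h1⟩ := h
  exact ⟨D, hD, fun _ _ => mapsTo_empty _ _, h0, h1⟩

/-- The maps of an interleaving. -/
theorem LMap.ofSp (hc : 0 ≤ c) (I : SpIntl A A' B B' c) : LMap A B (fun s => s + c) I.f where
  pos s hs := by linarith
  mono s t _ h := by linarith
  map s hs := I.f_map s hs
  nat s t hs h := ⟨t + c, by linarith, hp_drop (I.f_nat s t hs h)⟩

/-- The maps of an interleaving, backwards. -/
theorem LMap.ofSp' (hc : 0 ≤ c) (I : SpIntl A A' B B' c) : LMap B A (fun s => s + c) I.g where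
  pos s hs := by linarith
  mono s t _ h := by linarith
  map s hs := I.g_map s hs
  nat s t hs h := ⟨t + c, by linarith, hp_drop (I.g_nat s t hs h)⟩

theorem LMap.ofSp_gf {k : Type} [Field k] {q : ℕ} (hA : Mono A) (hB : Mono B) (hc : 0 ≤ c)
    (I : SpIntl A A' B B' c) (z : (PMa k A hA q).Fam) :
    (LMap.ofSp hc I).fam hA hB ((LMap.ofSp' hc I).fam hB hA z) = z := by
  rw [← LMap.fam_comp]
  have hi : LMap A A (fun s => s) fun _ => id := LMap.incl hA hA fun _ _ => le_rfl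
  refine (LMap.fam_congr _ hi (fun t ht => ?_) z).trans (hi.fam_id z)
  exact ⟨t + c + c, by linarith, H550.hp_symm (hp_drop (I.gf t ht))⟩

theorem LMap.ofSp_fg {k : Type} [Field k] {q : ℕ} (hA : Mono A) (hB : Mono B) (hc : 0 ≤ c)
    (I : SpIntl A A' B B' c) (z : (PMa k B hB q).Fam) :
    (LMap.ofSp' hc I).fam hB hA ((LMap.ofSp hc I).fam hA hB z) = z :=
  LMap.ofSp_gf hB hA hc (H550.spSymm I) z

end sp

section P

variable {N : Type} [MetricSpace N] [CompactSpace N] {a a' b b' : N} {m m' : ℝ} {p q : ℝ → N}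

/-- a fixed path as a track over a point -/
theorem try_of (hm : 0 ≤ m) (hp : Lip p) (h0 : ∀ u ≤ 0, p u = a) (h1 : ∀ u, m ≤ u → p u = a') :
    TrY ({()} : Set Unit) (fun _ => a) (fun _ => a') m fun _ => p where
  nonneg := hm
  lip _ _ := hp
  left _ _ := h0
  right _ _ := h1
  cont := hp.continuous.comp_continuousOn continuousOn_snd

/-- **Transport of the paths from `a` to `b`** along paths `p` from `a` to `a'` and `q` from `b` to
`b'`. -/
noncomputable def spP (hm : 0 ≤ m) (hm' : 0 ≤ m') (hp : Lip p) (hp0 : ∀ u ≤ 0, p u = a)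
    (hp1 : ∀ u, m ≤ u → p u = a') (hq : Lip q) (hq0 : ∀ u ≤ 0, q u = b)
    (hq1 : ∀ u, m' ≤ u → q u = b') :
    SpIntl (fun t => P a b t) (fun _ => ∅) (fun t => P a' b' t) (fun _ => ∅) (m + m') :=
  H550.spSymm (spIsoOn (H550.spSymm (spIsoOn
    (spEq (A₁ := fun t => ({()} : Set Unit) ×ˢ P a b t) (A₁' := fun _ => (∅ : Set (Unit × (ℝ →ᵇ N))))
      (B₁ := fun t => ({()} : Set Unit) ×ˢ P a' b' t) (B₁' := fun _ => (∅ : Set (Unit × (ℝ →ᵇ N))))
      (spPY (A := ∅) isCompact_singleton continuousOn_const continuousOn_const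
        continuousOn_const continuousOn_const (empty_subset _) (try_of hm hp hp0 hp1)
        (try_of hm' hq hq0 hq1)) rfl (fun t => rfl) (fun t => PY_empty t) (fun t => rfl)
        fun t => PY_empty t)
    (C := fun t => P a' b' t) (C' := fun _ => ∅) (add_nonneg hm hm') Prod.snd (fun w => ((), w))
    (fun t ht => map_of_cont (isCompact_singleton.prod (isCompact_P _ _ _)) continuousOn_snd
      fun q hq => hq.2)
    (fun t ht => mapsTo_empty _ _)
    (fun t ht => map_of_cont (isCompact_P _ _ _) (by fun_prop) fun w hw => ⟨rfl, hw⟩)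
    (fun t ht => mapsTo_empty _ _) (fun t ht x hx => rfl) fun t ht x hx => rfl))
    (C := fun t => P a b t) (C' := fun _ => ∅) (add_nonneg hm hm') Prod.snd (fun w => ((), w))
    (fun t ht => map_of_cont (isCompact_singleton.prod (isCompact_P _ _ _)) continuousOn_snd
      fun q hq => hq.2)
    (fun t ht => mapsTo_empty _ _)
    (fun t ht => map_of_cont (isCompact_P _ _ _) (by fun_prop) fun w hw => ⟨rfl, hw⟩)
    (fun t ht => mapsTo_empty _ _) (fun t ht x hx => rfl) fun t ht x hx => rfl)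

theorem spP_f (hm : 0 ≤ m) (hm' : 0 ≤ m') (hp : Lip p) (hp0 : ∀ u ≤ 0, p u = a)
    (hp1 : ∀ u, m ≤ u → p u = a') (hq : Lip q) (hq0 : ∀ u ≤ 0, q u = b)
    (hq1 : ∀ u, m' ≤ u → q u = b') (t : ℝ) (w : ℝ →ᵇ N) :
    (spP hm hm' hp hp0 hp1 hq hq0 hq1).f t w = mo (c2 m t p q w) := rfl

end P

/-- **Transport of the based loops at `a` to the based loops at `a'`.** -/
structure Tra {N : Type} [MetricSpace N] (a a' : N) where
  C : ℝ
  C0 : 0 ≤ C
  I : SpIntl (fun t => P a a t) (fun _ => ∅) (fun t => P a' a' t) (fun _ => ∅) C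
  inc : LEq (fun t => P a a t) (fun t => FL N t) (fun _ => id) I.f
  rv : LEq (fun t => P a a t) (fun t => P a' a' t) (fun t => H754B.rv (t + C) ∘ I.f t)
    fun t => I.f t ∘ H754B.rv t

namespace Tra

variable {N : Type} [MetricSpace N] {a a' a'' : N} {k : Type} [Field k] {q : ℕ}

/-- The identity. -/
noncomputable def refl (a : N) : Tra a a where
  C := 0
  C0 := le_rfl
  I :=
    { f := fun _ => id
      g := fun _ => id
      f_map := fun t ht => isMap_mono (A := P a a t) (B := P a a t)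
        ⟨fun x hx => hx, fun i => i.elim, fun ε hε => ⟨ε, hε, fun _ _ _ _ h => h⟩⟩ le_rfl
        (P_mono (by linarith))
      f_sub := fun t ht => mapsTo_empty _ _
      g_map := fun t ht => isMap_mono (A := P a a t) (B := P a a t)
        ⟨fun x hx => hx, fun i => i.elim, fun ε hε => ⟨ε, hε, fun _ _ _ _ h => h⟩⟩ le_rfl
        (P_mono (by linarith))
      g_sub := fun t ht => mapsTo_empty _ _
      f_nat := fun s t hs hst => H550.hp_refl
        ⟨fun x hx => P_mono (by linarith) hx, fun i => i.elim,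
          fun ε hε => ⟨ε, hε, fun _ _ _ _ h => h⟩⟩ (mapsTo_empty _ _)
      g_nat := fun s t hs hst => H550.hp_refl
        ⟨fun x hx => P_mono (by linarith) hx, fun i => i.elim,
          fun ε hε => ⟨ε, hε, fun _ _ _ _ h => h⟩⟩ (mapsTo_empty _ _)
      gf := fun t ht => H550.hp_refl
        ⟨fun x hx => P_mono (by linarith) hx, fun i => i.elim,
          fun ε hε => ⟨ε, hε, fun _ _ _ _ h => h⟩⟩ (mapsTo_empty _ _)
      fg := fun t ht => H550.hp_refl
        ⟨fun x hx => P_mono (by linarith) hx, fun i => i.elim,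
          fun ε hε => ⟨ε, hε, fun _ _ _ _ h => h⟩⟩ (mapsTo_empty _ _) }
  inc := LEq.of_eq (linc a) fun _ _ _ _ => rfl
  rv t ht := ⟨t, ht, H550.hp_of_eqOn (H754B.map_rv _ fun w hw => by
    rw [add_zero]
    exact rv_mem_P hw le_rfl) (mapsTo_empty _ _) fun w _ => by
      change H754B.rv (t + 0) w = H754B.rv t w
      rw [add_zero]⟩

/-- The map of the levels. -/
theorem lmap (J : Tra a a') :
    LMap (fun t => P a a t) (fun t => P a' a' t) (fun s => s + J.C) J.I.f :=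
  LMap.ofSp J.C0 J.I

/-- The map of the levels, backwards. -/
theorem lmap' (J : Tra a a') :
    LMap (fun t => P a' a' t) (fun t => P a a t) (fun s => s + J.C) J.I.g :=
  LMap.ofSp' J.C0 J.I

/-- **The transport of the families**, contravariant. -/
noncomputable def fam (J : Tra a a') (z : (GP k a' q).Fam) : (GP k a q).Fam :=
  J.lmap.fam (mono_P a) (mono_P a') z

noncomputable def fam' (J : Tra a a') (z : (GP k a q).Fam) : (GP k a' q).Fam :=
  J.lmap'.fam (mono_P a') (mono_P a) z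

theorem fam_fam' (J : Tra a a') (z : (GP k a q).Fam) : J.fam (J.fam' z) = z :=
  LMap.ofSp_gf (mono_P a) (mono_P a') J.C0 J.I z

theorem fam'_fam (J : Tra a a') (z : (GP k a' q).Fam) : J.fam' (J.fam z) = z :=
  LMap.ofSp_fg (mono_P a) (mono_P a') J.C0 J.I z

/-- Backwards, as free loops. -/
theorem inc' (J : Tra a a') :
    LEq (fun t => P a' a' t) (fun t => FL N t) (fun _ => id) J.I.g := by
  intro t ht
  have hC := J.C0
  obtain ⟨T, hT, H⟩ := J.inc (t + J.C) (by linarith)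
  have k1 : Hp (P a' a' t) ∅ (FL N T) ∅ (id ∘ J.I.g t) (J.I.f (t + J.C) ∘ J.I.g t) :=
    H.comp_right (J.I.g_map t ht) (mapsTo_empty _ _)
  have k2 : Hp (P a' a' t) ∅ (FL N (t + J.C + J.C)) ∅ id (J.I.f (t + J.C) ∘ J.I.g t) :=
    (J.I.fg t ht).mono le_rfl le_rfl P_subset_FL le_rfl
  refine ⟨max T (t + J.C + J.C), lt_max_of_lt_left hT, H550.hp_trans
    (k2.mono le_rfl le_rfl (FL_mono (le_max_right _ _)) le_rfl) (H550.hp_symm
      (k1.mono le_rfl le_rfl (FL_mono (le_max_left _ _)) le_rfl))⟩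

/-- Backwards, the reversal. -/
theorem rv' (J : Tra a a') :
    LEq (fun t => P a' a' t) (fun t => P a a t) (fun t => H754B.rv (t + J.C) ∘ J.I.g t)
      fun t => J.I.g t ∘ H754B.rv t := by
  intro t ht
  have hC := J.C0
  have hc : 0 < t + J.C := by linarith
  -- `g rv ~ g rv f g ~ g f rv g ~ rv g`
  obtain ⟨T, hT, H⟩ := J.rv (t + J.C) hc
  obtain ⟨U, hU⟩ : ∃ U, U = max T (t + J.C + J.C) := ⟨_, rfl⟩
  have u1 : T ≤ U := hU ▸ le_max_left _ _
  have u2 : t + J.C + J.C ≤ U := hU ▸ le_max_right _ _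
  have hU0 : 0 < U := hT.trans_le u1
  have m1 : IsMap (tr _) (tr _) (P a' a' t) (P a' a' t) (H754B.rv t) :=
    H754B.map_rv t fun w hw => rv_mem_P hw le_rfl
  -- (1) `rv t` to `rv t f g`
  have k1 : Hp (P a' a' t) ∅ (P a' a' (t + J.C + J.C)) ∅ id (J.I.f (t + J.C) ∘ J.I.g t) :=
    J.I.fg t ht
  have r1 : IsMap (tr _) (tr _) (P a' a' (t + J.C + J.C)) (P a' a' U)
      (H754B.rv (t + J.C + J.C)) := H754B.map_rv _ fun w hw => P_mono u2 (rv_mem_P hw le_rfl)
  have k2 : Hp (P a' a' t) ∅ (P a' a' U) ∅ (H754B.rv (t + J.C + J.C) ∘ id)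
      (H754B.rv (t + J.C + J.C) ∘ (J.I.f (t + J.C) ∘ J.I.g t)) :=
    k1.comp_left r1 (mapsTo_empty _ _)
  have k3 : Hp (P a' a' t) ∅ (P a' a' U) ∅ (H754B.rv t) (H754B.rv (t + J.C + J.C)) :=
    ⟨_, H754B.htpy_rv (by linarith) (fun _ hw => hw.1) (fun σ _ h2 w hw =>
      P_mono (h2.trans u2) (rv_mem_P hw (by assumption))), fun _ _ => mapsTo_empty _ _,
      fun w _ => H754B.htpy_rv_zero w, fun w _ => H754B.htpy_rv_one w⟩
  -- (2) `rv f g` to `f rv g`
  have k4 : Hp (P a' a' t) ∅ (P a' a' T) ∅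
      ((H754B.rv (t + J.C + J.C) ∘ J.I.f (t + J.C)) ∘ J.I.g t)
      ((J.I.f (t + J.C) ∘ H754B.rv (t + J.C)) ∘ J.I.g t) :=
    H.comp_right (J.I.g_map t ht) (mapsTo_empty _ _)
  have k5 : Hp (P a' a' t) ∅ (P a' a' U) ∅ (H754B.rv t)
      ((J.I.f (t + J.C) ∘ H754B.rv (t + J.C)) ∘ J.I.g t) :=
    H550.hp_trans (H550.hp_trans k3 k2) (k4.mono le_rfl le_rfl (P_mono u1) le_rfl)
  -- (3) apply `g`
  have k6 : Hp (P a' a' t) ∅ (P a a (U + J.C)) ∅ (J.I.g U ∘ H754B.rv t)
      (J.I.g U ∘ ((J.I.f (t + J.C) ∘ H754B.rv (t + J.C)) ∘ J.I.g t)) :=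
    k5.comp_left (J.I.g_map U hU0) (mapsTo_empty _ _)
  have k7 : Hp (P a' a' t) ∅ (P a a (U + J.C)) ∅ (J.I.g t ∘ H754B.rv t)
      (J.I.g U ∘ H754B.rv t) :=
    (J.I.g_nat t U ht (by linarith)).comp_right m1 (mapsTo_empty _ _)
  -- (4) `g f` is the identity
  have m2 : IsMap (tr _) (tr _) (P a' a' t) (P a a (t + J.C)) (H754B.rv (t + J.C) ∘ J.I.g t) :=
    isMap_comp (J.I.g_map t ht) (H754B.map_rv _ fun w hw => rv_mem_P hw le_rfl)
  have k8 : Hp (P a' a' t) ∅ (P a a (t + J.C + J.C + J.C)) ∅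
      (id ∘ (H754B.rv (t + J.C) ∘ J.I.g t))
      ((J.I.g (t + J.C + J.C) ∘ J.I.f (t + J.C)) ∘ (H754B.rv (t + J.C) ∘ J.I.g t)) :=
    (J.I.gf (t + J.C) hc).comp_right m2 (mapsTo_empty _ _)
  have m3 : IsMap (tr _) (tr _) (P a' a' t) (P a' a' (t + J.C + J.C))
      (J.I.f (t + J.C) ∘ (H754B.rv (t + J.C) ∘ J.I.g t)) := isMap_comp m2 (J.I.f_map _ hc)
  have k9 : Hp (P a' a' t) ∅ (P a a (U + J.C)) ∅
      (J.I.g (t + J.C + J.C) ∘ (J.I.f (t + J.C) ∘ (H754B.rv (t + J.C) ∘ J.I.g t)))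
      (J.I.g U ∘ (J.I.f (t + J.C) ∘ (H754B.rv (t + J.C) ∘ J.I.g t))) :=
    (J.I.g_nat (t + J.C + J.C) U (by linarith) u2).comp_right m3 (mapsTo_empty _ _)
  refine ⟨U + J.C, by linarith, ?_⟩
  refine H550.hp_trans (k8.mono le_rfl le_rfl (P_mono (by linarith)) le_rfl) ?_
  exact H550.hp_trans k9 (H550.hp_trans (H550.hp_symm k6) (H550.hp_symm k7))

/-- Backwards. -/
noncomputable def symm (J : Tra a a') : Tra a' a where
  C := J.C
  C0 := J.C0
  I := H550.spSymm J.I
  inc := J.inc'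
  rv := J.rv'

/-- **Composition.** -/
noncomputable def trans (J : Tra a a') (J' : Tra a' a'') : Tra a a'' where
  C := J.C + J'.C
  C0 := add_nonneg J.C0 J'.C0
  I := H550.spComp J.I J'.I J.C0 J'.C0 (fun _ _ _ h => P_mono h) (fun _ _ _ _ => le_rfl)
    (fun _ _ _ h => P_mono h) fun _ _ _ _ => le_rfl
  inc t ht := by
    have hC := J.C0
    obtain ⟨T, hT, H⟩ := J.inc t ht
    obtain ⟨T', hT', H'⟩ := J'.inc (t + J.C) (by linarith)
    have k1 : Hp (P a a t) ∅ (FL N T') ∅ (id ∘ J.I.f t) (J'.I.f (t + J.C) ∘ J.I.f t) :=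
      H'.comp_right (J.I.f_map t ht) (mapsTo_empty _ _)
    exact ⟨max T T', lt_max_of_lt_left hT, H550.hp_trans
      (H.mono le_rfl le_rfl (FL_mono (le_max_left _ _)) le_rfl)
      (k1.mono le_rfl le_rfl (FL_mono (le_max_right _ _)) le_rfl)⟩
  rv t ht := by
    have hC := J.C0
    have hC' := J'.C0
    have hc : 0 < t + J.C := by linarith
    obtain ⟨T, hT, H⟩ := J.rv t ht
    obtain ⟨T', hT', H'⟩ := J'.rv (t + J.C) hc
    have e : t + (J.C + J'.C) = t + J.C + J'.C := by ring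
    obtain ⟨U, hU⟩ : ∃ U, U = max T (t + J.C) := ⟨_, rfl⟩
    have u1 : T ≤ U := hU ▸ le_max_left _ _
    have u2 : t + J.C ≤ U := hU ▸ le_max_right _ _
    have hU0 : 0 < U := hT.trans_le u1
    -- `rv f' f ~ f' rv f`
    have k1 : Hp (P a a t) ∅ (P a'' a'' T') ∅
        ((H754B.rv (t + J.C + J'.C) ∘ J'.I.f (t + J.C)) ∘ J.I.f t)
        ((J'.I.f (t + J.C) ∘ H754B.rv (t + J.C)) ∘ J.I.f t) :=
      H'.comp_right (J.I.f_map t ht) (mapsTo_empty _ _)
    -- `f' (rv f) ~ f'_U (rv f)`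
    have m1 : IsMap (tr _) (tr _) (P a a t) (P a' a' (t + J.C)) (H754B.rv (t + J.C) ∘ J.I.f t) :=
      isMap_comp (J.I.f_map t ht) (H754B.map_rv _ fun w hw => rv_mem_P hw le_rfl)
    have k2 : Hp (P a a t) ∅ (P a'' a'' (U + J'.C)) ∅
        (J'.I.f (t + J.C) ∘ (H754B.rv (t + J.C) ∘ J.I.f t))
        (J'.I.f U ∘ (H754B.rv (t + J.C) ∘ J.I.f t)) :=
      (J'.I.f_nat (t + J.C) U hc u2).comp_right m1 (mapsTo_empty _ _)
    have k3 : Hp (P a a t) ∅ (P a'' a'' (U + J'.C)) ∅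
        (J'.I.f U ∘ (H754B.rv (t + J.C) ∘ J.I.f t)) (J'.I.f U ∘ (J.I.f t ∘ H754B.rv t)) :=
      (H.mono le_rfl le_rfl (P_mono u1) le_rfl).comp_left (J'.I.f_map U hU0) (mapsTo_empty _ _)
    have m2 : IsMap (tr _) (tr _) (P a a t) (P a' a' (t + J.C)) (J.I.f t ∘ H754B.rv t) :=
      isMap_comp (H754B.map_rv t fun w hw => rv_mem_P hw le_rfl) (J.I.f_map t ht)
    have k4 : Hp (P a a t) ∅ (P a'' a'' (U + J'.C)) ∅
        (J'.I.f (t + J.C) ∘ (J.I.f t ∘ H754B.rv t)) (J'.I.f U ∘ (J.I.f t ∘ H754B.rv t)) :=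
      (J'.I.f_nat (t + J.C) U hc u2).comp_right m2 (mapsTo_empty _ _)
    refine ⟨max T' (U + J'.C), lt_max_of_lt_left hT', ?_⟩
    have w1 : P a'' a'' T' ⊆ P a'' a'' (max T' (U + J'.C)) := P_mono (le_max_left _ _)
    have w2 : P a'' a'' (U + J'.C) ⊆ P a'' a'' (max T' (U + J'.C)) := P_mono (le_max_right _ _)
    have key := H550.hp_trans (k1.mono le_rfl le_rfl w1 le_rfl) (H550.hp_trans
      (k2.mono le_rfl le_rfl w2 le_rfl) (H550.hp_trans (k3.mono le_rfl le_rfl w2 le_rfl)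
      (H550.hp_symm (k4.mono le_rfl le_rfl w2 le_rfl))))
    refine H550.hp_congr key (fun w hw => ?_) fun _ _ => rfl
    change H754B.rv (t + J.C + J'.C) (J'.I.f (t + J.C) (J.I.f t w)) =
      H754B.rv (t + (J.C + J'.C)) (J'.I.f (t + J.C) (J.I.f t w))
    rw [e]

/-- **Close base points.** -/
noncomputable def ofClose [CompactSpace N] {ρ r : ℝ} (hU : LS.UniqSeg N ρ) (hr : 0 < r)
    (hrρ : r < ρ) (hd : dist a a' ≤ r) : Tra a a' where
  C := r + r
  C0 := by linarith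
  I := spP hr.le hr.le (sgt_lip hU hr hrρ hd) (fun _ h => sgt_le hr h) (fun _ h => sgt_ge hr h)
    (sgt_lip hU hr hrρ hd) (fun _ h => sgt_le hr h) fun _ h => sgt_ge hr h
  inc t ht := by
    refine ⟨t + (r + r), by linarith, ?_⟩
    exact hp_shrink (B := FL N (t + (r + r))) hU hr hrρ ht.le (isCompact_P a a t)
      (F := fun w => w) (a := fun _ => a') (a' := fun _ => a) continuousOn_id continuousOn_const
      (fun w hw => hw) (fun _ _ => hd) fun _ _ z v hv => P_subset_FL hv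
  rv t ht := by
    have hT := try_of (a := a) (a' := a') hr.le (sgt_lip hU hr hrρ hd)
      (fun _ h => sgt_le hr h) fun _ h => sgt_ge hr h
    have hm : ∀ w ∈ P a a t, mo (c2 r t (sgt a a' r) (sgt a a' r) w) ∈ P a' a' (t + (r + r)) :=
      fun w hw => (tw_mem (A := {()}) (q := ((), w)) hT hT ht.le rfl
        (show ((), w) ∈ PY (fun _ => a) (fun _ => a) {()} t from ⟨rfl, hw⟩)).2
    have hI : IsMap (tr _) (tr _) (P a a t) (P a' a' (t + (r + r)))
        ((spP (a := a) (a' := a') (b := a) (b' := a') hr.le hr.le (sgt_lip hU hr hrρ hd)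
          (fun _ h => sgt_le hr h) (fun _ h => sgt_ge hr h) (sgt_lip hU hr hrρ hd)
          (fun _ h => sgt_le hr h) fun _ h => sgt_ge hr h).f t) :=
      (spP hr.le hr.le (sgt_lip hU hr hrρ hd) (fun _ h => sgt_le hr h)
        (fun _ h => sgt_ge hr h) (sgt_lip hU hr hrρ hd) (fun _ h => sgt_le hr h)
        fun _ h => sgt_ge hr h).f_map t ht
    refine ⟨t + (r + r), by linarith, H550.hp_of_eqOn (isMap_comp hI
      (H754B.map_rv _ fun w hw => rv_mem_P hw le_rfl)) (mapsTo_empty _ _) fun w hw => ?_⟩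
    have h := tw_rv (L := {()}) (q := ((), w)) hT hT ht.le
      (show ((), w) ∈ PY (fun _ => a) (fun _ => a) {()} t from ⟨rfl, hw⟩)
    have h' := congrArg Prod.snd h
    have e : t + 2 * r = t + (r + r) := by ring
    rw [e] at h'
    exact h'

/-! ### Families -/

/-- The restriction of a family on the free loops to the based loops. -/
noncomputable def _root_.Vale.Agent.P216.D539.rs (x : N) (z : (XP k N q).Fam) :
    (GP k x q).Fam := (linc x).fam (mono_P x) mono_FL z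

/-- **The transport of a family which comes from the free loops.** -/
theorem fam_rs (J : Tra a a') (z : (XP k N q).Fam) : J.fam (rs a' z) = rs a z := by
  unfold rs fam
  refine (LMap.fam_comp' J.lmap (linc a') (linc a) ?_ z).symm
  exact J.inc

/-- The transport commutes with the reversal. -/
theorem fam_rv (J : Tra a a') (z : (GP k a' q).Fam) :
    J.fam (((opP a').opa k (mono_P a') q).fam z) = ((opP a).opa k (mono_P a) q).fam (J.fam z) :=
  J.lmap.fam_op (opP a) (opP a') J.rv z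

end Tra

end Vale.Agent.P216.D539
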